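import Vale.Agent.P257.V4.E.Defs
import Vale.Agent.P251.M.EvenPer
import Vale.Agent.P251.S.Tens

/-!
# P257, part E: cofibres

`XM q u`, `f : X ⊗ S^{2 w₀} ⟶ X` with Hurewicz image `v` on the generator `u`, `v` regular:
`XM q (u ≫ i)` for the cofibre `i : X ⟶ V` of `f`, and the kernel of `evX (u ≫ i)` is generated by
the kernel of `evX u` and the multiples of `v` (at the last vertex).
-/

open CategoryTheory MonoidalCategory Limits Pretriangulated MonObj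

set_option linter.unusedSectionVars false

universe v u

namespace Vale.Agent.P257.V4.E

open Vale.Agent.P251.T Vale.Agent.P251.M Vale.Agent.P251.S

variable {T : Type u} [Category.{v} T] [Preadditive T] [HasZeroObject T]
    [HasShift T ℤ] [∀ n : ℤ, (shiftFunctor T n).Additive] [Pretriangulated T]
    [MonoidalCategory T] [SymmetricCategory T] [TensorTriangulated T] [HasCoproducts.{0} T]

/-- `S^{2w} ≅ 𝟙⟦2w⟧` -/
noncomputable def sphE (T : Type u) [Category.{v} T] [Preadditive T] [HasZeroObject T]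
    [HasShift T ℤ] [∀ n : ℤ, (shiftFunctor T n).Additive] [Pretriangulated T]
    [MonoidalCategory T] [SymmetricCategory T] [TensorTriangulated T] (w : ℤ) :
    (stdEven T).S w ≅ (𝟙_ T)⟦(2 * w : ℤ)⟧ :=
  (stdEven T).sphIso (Iso.refl _) w

omit [HasCoproducts.{0} T] in
theorem ux_tensor {X : T} (u : 𝟙_ T ⟶ X) (A Y : T) :
    ux u A ▷ Y ≫ (α_ A X Y).hom = A ◁ ((λ_ Y).inv ≫ u ▷ Y) := by
  unfold ux
  monoidal

omit [HasCoproducts.{0} T] in
theorem whiskerLeft_ux {X : T} (u : 𝟙_ T ⟶ X) (A R : T) :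
    A ◁ ux u R ≫ (α_ A R X).inv = ux u (A ⊗ R) := by
  unfold ux
  monoidal

omit [HasCoproducts.{0} T] in
/-- A map from the even sphere `S^{2w'}` to `Z ⊗ S^{2w₀}` is the suspension of a map from
`S^{2w}`. -/
theorem exists_desusp {w w₀ w' : ℤ} (h : w + w₀ = w') {Z : T}
    (y : (stdEven T).S w' ⟶ Z ⊗ (stdEven T).S w₀) :
    ∃ x : (stdEven T).S w ⟶ Z, y = ((stdEven T).mu w w₀ w' h).inv ≫ x ▷ (stdEven T).S w₀ := by
  obtain ⟨x, hx⟩ := whiskerRight_surj ((stdEven T).S w₀) (((stdEven T).mu w w₀ w' h).hom ≫ y)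
  exact ⟨x, by rw [hx, Iso.inv_hom_id_assoc]⟩

omit [HasCoproducts.{0} T] in
/-- Suspension by `S^{2 w₀}` of vanishing groups. -/
theorem zero_of_susp {w₀ k : ℤ} {Z : T} (h0 : ∀ f : (𝟙_ T)⟦k - 2 * w₀⟧ ⟶ Z, f = 0)
    (y : (𝟙_ T)⟦k⟧ ⟶ Z ⊗ (stdEven T).S w₀) : y = 0 := by
  let e : Z ⊗ (stdEven T).S w₀ ≅ Z⟦2 * w₀⟧ := ((stdEven T).shiftNat (Iso.refl _) w₀).app Z
  have h1 : (sh (k - 2 * w₀) (2 * w₀) k (by ring)).symm (y ≫ e.hom) = 0 := h0 _
  rw [AddEquiv.symm_apply_eq, map_zero] at h1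
  rw [← cancel_mono e.hom, h1, zero_comp]

namespace RMod

variable {K : CosR} {R : T} [MonObj R] [IsCommMonObj R] (E : RMod K R)

/-- The last vertex of `v`. -/
def vl (K : CosR) {w₀ : ℤ} (v : K.wt 0 w₀) (s : ℕ) : K.wt s w₀ := K.mapw (fun _ => Fin.last s) w₀ v

omit [HasCoproducts.{0} T] [TensorTriangulated T] [HasShift T ℤ]
  [∀ n : ℤ, (shiftFunctor T n).Additive] [HasZeroObject T] [Pretriangulated T] [Preadditive T] in
theorem map_const_last (s : ℕ) :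
    Am.map R (fun _ : Fin (0 + 1) => Fin.last s) = (λ_ R).hom ≫ Am.v R (Fin.last s) := by
  have h1 := Am.v_map R (fun _ : Fin (0 + 1) => Fin.last s) (Fin.last 0)
  have h2 : Am.v R (Fin.last 0) = (λ_ R).inv := by
    rw [Am.v_last]
    change (λ_ R).inv ≫ 𝟙 (𝟙_ T) ▷ R = _
    rw [id_whiskerRight, Category.comp_id]
  rw [h2] at h1
  rw [← h1, Iso.hom_inv_id_assoc]

/-- multiplication by `v` on elements `a ⊗ u` -/
theorem ext_hur {X : T} {u : 𝟙_ T ⟶ X} {w w₀ w' : ℤ} (h : w + w₀ = w')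
    {g : (stdEven T).S w₀ ⟶ X} {v : K.wt 0 w₀}
    (hg : g ≫ unitMap R X = (E.evw 0 w₀ v ≫ (λ_ R).hom) ≫ ux u R) {s : ℕ} (z : K.wt s w) :
    (stdEven T).ext h (E.evw s w z) g = E.evX u s w' (K.mulw h z (vl K v s)) := by
  have hact : Am R (s + 1) ◁ unitMap R X ≫ (α_ (Am R (s + 1)) R X).inv ≫
      (Am R (s + 1) ◁ Am.v R (Fin.last s) ≫ μ[Am R (s + 1)]) ▷ X = 𝟙 _ := by
    have h1 : Am R (s + 1) ◁ unitMap R X ≫ (α_ (Am R (s + 1)) R X).inv =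
        (ρ_ (Am R (s + 1))).inv ▷ X ≫ (Am R (s + 1) ◁ η[R]) ▷ X := by
      unfold unitMap
      monoidal
    rw [reassoc_of% h1, ← comp_whiskerRight, ← comp_whiskerRight,
      ← MonoidalCategory.whiskerLeft_comp_assoc, IsMonHom.one_hom, MonObj.mul_one,
      Iso.inv_hom_id, id_whiskerRight]
  have h2 : (stdEven T).ext h (E.evw s w z) g = (stdEven T).ext h (E.evw s w z) g ≫
      Am R (s + 1) ◁ unitMap R X ≫ (α_ (Am R (s + 1)) R X).inv ≫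
      (Am R (s + 1) ◁ Am.v R (Fin.last s) ≫ μ[Am R (s + 1)]) ▷ X := by
    rw [hact, Category.comp_id]
  have h3 : (stdEven T).ext h (E.evw s w z) g ≫ Am R (s + 1) ◁ unitMap R X =
      (stdEven T).ext h (E.evw s w z) (E.evw 0 w₀ v ≫ (λ_ R).hom) ≫ Am R (s + 1) ◁ ux u R := by
    rw [← EvenSpheres.ext_comp_right, hg, EvenSpheres.ext_comp_right]
  have h4 : (stdEven T).ext h (E.evw s w z) (E.evw 0 w₀ v ≫ (λ_ R).hom) ≫
      Am R (s + 1) ◁ Am.v R (Fin.last s) =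
      (stdEven T).ext h (E.evw s w z) (E.evw s w₀ (vl K v s)) := by
    rw [← EvenSpheres.ext_comp_right, vl, evw_map, map_const_last, Category.assoc]
  rw [h2, reassoc_of% h3, reassoc_of% (whiskerLeft_ux u (Am R (s + 1)) R), ux_nat,
    Category.assoc, reassoc_of% h4, evX_apply, evw_mul, EvenSpheres.gmul, Category.assoc]

section step

variable {X V : T} {u : 𝟙_ T ⟶ X} {q w₀ : ℤ}

theorem XM.exists_gen (hX : E.XM q u) {s : ℕ} {w w' : ℤ} (h : w + w₀ = w')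
    (y : (stdEven T).S w' ⟶ Am R (s + 1) ⊗ (X ⊗ (stdEven T).S w₀)) :
    ∃ z : K.wt s w, y = ((stdEven T).mu w w₀ w' h).inv ≫
      (E.evX u s w z ▷ (stdEven T).S w₀) ≫ (α_ _ _ _).hom := by
  obtain ⟨x, hx⟩ := exists_desusp h (y ≫ (α_ _ _ _).inv)
  obtain ⟨z, rfl⟩ := hX.surj s w x
  refine ⟨z, ?_⟩
  rw [← cancel_mono (α_ (Am R (s + 1)) X ((stdEven T).S w₀)).inv, hx]
  simp

variable {f : X ⊗ (stdEven T).S w₀ ⟶ X} {v : K.wt 0 w₀}
  (hv : ((λ_ _).inv ≫ u ▷ (stdEven T).S w₀ ≫ f) ≫ unitMap R X =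
    (E.evw 0 w₀ v ≫ (λ_ R).hom) ≫ ux u R)

include hv in
theorem gen_comp {s : ℕ} {w w' : ℤ} (h : w + w₀ = w') (z : K.wt s w) :
    (((stdEven T).mu w w₀ w' h).inv ≫ (E.evX u s w z ▷ (stdEven T).S w₀) ≫ (α_ _ _ _).hom) ≫
      Am R (s + 1) ◁ f = E.evX u s w' (K.mulw h z (vl K v s)) := by
  rw [← E.ext_hur h hv, EvenSpheres.ext, tensorHom_def, evX_apply, comp_whiskerRight]
  simp only [Category.assoc]
  rw [reassoc_of% (ux_tensor u (Am R (s + 1)) ((stdEven T).S w₀)),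
    ← MonoidalCategory.whiskerLeft_comp, Category.assoc]

variable {i : X ⟶ V} {δ : V ⟶ (X ⊗ (stdEven T).S w₀)⟦(1 : ℤ)⟧}
  (hΔ : Triangle.mk f i δ ∈ distTriang T) (hq2 : 2 ∣ q) (hqw : q ∣ 2 * w₀)
  (hreg : ∀ (s : ℕ) (w w' : ℤ) (h : w + w₀ = w') (z : K.wt s w),
    K.mulw h z (vl K v s) ∈ E.kx u s w' → z ∈ E.kx u s w)

include hv hq2 hqw hreg in
/-- Injectivity of `f` on homotopy. -/
theorem XM.f_inj (hX : E.XM q u) {s : ℕ} {k : ℤ}
    (y : (𝟙_ T)⟦k⟧ ⟶ Am R (s + 1) ⊗ (X ⊗ (stdEven T).S w₀))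
    (hy : y ≫ Am R (s + 1) ◁ f = 0) : y = 0 := by
  by_cases hk : q ∣ k
  · obtain ⟨w', rfl⟩ := hq2.trans hk
    rw [← cancel_epi (sphE T w').hom, comp_zero]
    have h : (w' - w₀) + w₀ = w' := by ring
    obtain ⟨z, hz⟩ := hX.exists_gen E h ((sphE T w').hom ≫ y)
    have h1 : E.evX u s w' (K.mulw h z (vl K v s)) = 0 := by
      rw [← E.gen_comp hv h z, ← hz, Category.assoc, hy, comp_zero]
    have h2 : E.evX u s _ z = 0 := hreg s _ _ h z h1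
    rw [hz, h2, MonoidalPreadditive.zero_whiskerRight, zero_comp, comp_zero]
  · have h1 : y ≫ (α_ _ _ _).inv = 0 := by
      refine zero_of_susp (fun g => hX.spa s _ ?_ g) _
      intro h2
      exact hk ((dvd_sub_left hqw).1 h2)
    rw [← cancel_mono (α_ (Am R (s + 1)) X ((stdEven T).S w₀)).inv, h1, zero_comp]

include hv hΔ hq2 hqw hreg in
theorem XM.exists_lift (hX : E.XM q u) {s : ℕ} {k : ℤ} (y : (𝟙_ T)⟦k⟧ ⟶ Am R (s + 1) ⊗ V) :
    ∃ x : (𝟙_ T)⟦k⟧ ⟶ Am R (s + 1) ⊗ X, y = x ≫ Am R (s + 1) ◁ i := by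
  have hd := tens_dist (Am R (s + 1)) hΔ
  have h0 : (y ≫ tensδ (Am R (s + 1)) δ) ≫ (Am R (s + 1) ◁ f)⟦(1 : ℤ)⟧' = 0 := by
    rw [Category.assoc]
    have := comp_distTriang_mor_zero₃₁ _ hd
    change tensδ (Am R (s + 1)) δ ≫ (Am R (s + 1) ◁ f)⟦(1 : ℤ)⟧' = 0 at this
    rw [this, comp_zero]
  have h1 : (sh (k - 1) 1 k (by ring)).symm (y ≫ tensδ (Am R (s + 1)) δ) = 0 := by
    apply hX.f_inj E hv hq2 hqw hreg
    rw [sh_symm_comp, h0, map_zero]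
  rw [AddEquiv.symm_apply_eq, map_zero] at h1
  obtain ⟨x, hx⟩ := Triangle.coyoneda_exact₃ _ hd y h1
  exact ⟨x, hx⟩

include hv hΔ hq2 hqw hreg in
/-- **The step.** -/
theorem XM.step (hX : E.XM q u) : E.XM q (u ≫ i) where
  spa s k hk y := by
    obtain ⟨x, rfl⟩ := hX.exists_lift E hv hΔ hq2 hqw hreg y
    rw [hX.spa s k hk x, zero_comp]
  surj s w y := by
    obtain ⟨x, hx⟩ := hX.exists_lift E hv hΔ hq2 hqw hreg ((sphE T w).inv ≫ y)
    obtain ⟨z, hz⟩ := hX.surj s w ((sphE T w).hom ≫ x)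
    refine ⟨z, ?_⟩
    rw [← evX_comp, hz, Category.assoc, ← hx, Iso.hom_inv_id_assoc]

include hv hΔ in
/-- The kernel on the cofibre. -/
theorem XM.mem_kx_step (hX : E.XM q u) {s : ℕ} {w w' : ℤ} (h : w + w₀ = w') (z : K.wt s w') :
    z ∈ E.kx (u ≫ i) s w' ↔ ∃ y : K.wt s w, z - K.mulw h y (vl K v s) ∈ E.kx u s w' := by
  have hd := tens_dist (Am R (s + 1)) hΔ
  rw [mem_kx, ← evX_comp]
  constructor
  · intro h1
    obtain ⟨y, hy⟩ : ∃ y, E.evX u s w' z = y ≫ Am R (s + 1) ◁ f :=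
      Triangle.coyoneda_exact₂ _ hd (E.evX u s w' z) h1
    obtain ⟨y', rfl⟩ := hX.exists_gen E h y
    rw [E.gen_comp hv h y'] at hy
    exact ⟨y', by rw [mem_kx, map_sub, hy, sub_self]⟩
  · rintro ⟨y, hy⟩
    rw [mem_kx, map_sub, sub_eq_zero] at hy
    have h2 : Am R (s + 1) ◁ f ≫ Am R (s + 1) ◁ i = 0 := comp_distTriang_mor_zero₁₂ _ hd
    rw [hy, ← E.gen_comp hv h y, Category.assoc, h2, comp_zero]

end step

end RMod

end Vale.Agent.P257.V4.E
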