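import Vale.Agent.P251.S.CobarE1
import Vale.Agent.P251.S.TowerR

/-!
# P257, part E: the cobar complex and the couple of the tower `U.tow Y`

The statements of `P251/S/CobarE1` for the tower itself (no functor `F`). For
`C = (U.tow Y).couple P`:

* `qC : Hom (P⟦t⟧, Q (s+1) Y) →+ C.E s n` (`n + s = t`), surjective, compatible with the
  differentials;
* `exists_cocycle_qC`, `van_of_exactC`, `exists_of_isCobdyC`, `isCobdy_qC`, `isCocycle_qC`,
  `qC_zero_injective`, `E_eq_zeroC`.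
-/

open CategoryTheory Limits Pretriangulated MonoidalCategory MonObj Opposite

universe v u

namespace Vale.Agent.P257.V4.E

open Vale.Agent.P251.T Vale.Agent.P251.S

variable {T : Type u} [Category.{v} T] [Preadditive T] [HasZeroObject T] [HasShift T ℤ]
  [∀ n : ℤ, (shiftFunctor T n).Additive] [Pretriangulated T] [MonoidalCategory T]
  [SymmetricCategory T] [TensorTriangulated T]

/-- The functor `Z ↦ Hom (P⟦t⟧, Z)`. -/
abbrev homT (P : T) (t : ℤ) : T ⥤ AddCommGrpCat.{v} := preadditiveCoyoneda.obj (op (P⟦t⟧))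

omit [HasZeroObject T] [∀ n : ℤ, (shiftFunctor T n).Additive] [Pretriangulated T]
  [MonoidalCategory T] [SymmetricCategory T] [TensorTriangulated T] in
lemma ev_homT (P : T) (t : ℤ) {X Y : T} (f : X ⟶ Y) (x : P⟦t⟧ ⟶ X) :
    CobarData.ev (homT P t) f x = x ≫ f := rfl

variable {R : T} [MonObj R] (U : UnitCof R) (Y : T) (P : T)

/-- The identification of `E^s_n`, `n + s = t`. -/
noncomputable def eT {s : ℕ} {n t : ℤ} (h : n + (s : ℤ) = t) :
    ((U.tow Y).couple P).E s n ≃+ (P⟦t⟧ ⟶ U.cobar.M.obj (U.cobar.B s Y)) :=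
  (U.tow Y).eE P h

/-- The identification of `D^s_n`, `n + s = t`. -/
noncomputable def dT {s : ℕ} {n t : ℤ} (h : n + (s : ℤ) = t) :
    ((U.tow Y).couple P).D s n ≃+ (P⟦t⟧ ⟶ U.cobar.B s Y) :=
  (U.tow Y).eD P h

lemma eT_j {s : ℕ} {n t : ℤ} (h : n + (s : ℤ) = t) (y : ((U.tow Y).couple P).D s n) :
    eT U Y P h (((U.tow Y).couple P).j s n y) = dT U Y P h y ≫ U.cobar.un (U.cobar.B s Y) :=
  (U.tow Y).eE_j P h y

lemma dT_k {s : ℕ} {n m t : ℤ} (h : n = m + 1) (h1 : n + (s : ℤ) = t)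
    (h2 : m + ((s + 1 : ℕ) : ℤ) = t) (z : ((U.tow Y).couple P).E s n) :
    dT U Y P h2 (((U.tow Y).couple P).k s n m h z) = eT U Y P h1 z ≫ U.cobar.k s Y :=
  (U.tow Y).eD_k P h h1 h2 z

lemma dT_i {s : ℕ} {n t t' : ℤ} (h : n + (s : ℤ) = t) (h' : n + ((s + 1 : ℕ) : ℤ) = t')
    (ht : t + 1 = t') (y : ((U.tow Y).couple P).D (s + 1) n) :
    sh t 1 t' ht (dT U Y P h (((U.tow Y).couple P).i s n y)) = dT U Y P h' y ≫ U.bd s Y :=
  (U.tow Y).eD_i P h h' ht y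

/-- The differential of the `E_1`-term. -/
lemma eT_d {s : ℕ} {n m t : ℤ} (h : n = m + 1) (h1 : n + (s : ℤ) = t)
    (h2 : m + ((s + 1 : ℕ) : ℤ) = t) (z : ((U.tow Y).couple P).E s n) :
    eT U Y P h2 (((U.tow Y).couple P).d s n m h z) = eT U Y P h1 z ≫ U.cobar.D s Y :=
  (U.tow Y).eE_d P h h1 h2 z

/-- The map from the cobar complex to the `E_1`-term. -/
noncomputable def qC {s : ℕ} {n t : ℤ} (h : n + (s : ℤ) = t) :
    (P⟦t⟧ ⟶ U.cobar.Q (s + 1) Y) →+ ((U.tow Y).couple P).E s n :=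
  (eT U Y P h).symm.toAddMonoidHom.comp
    (AddMonoidHom.mk' (fun x => x ≫ U.cobar.q s Y) (fun _ _ => Preadditive.add_comp ..))

lemma eT_qC {s : ℕ} {n t : ℤ} (h : n + (s : ℤ) = t) (x : P⟦t⟧ ⟶ U.cobar.Q (s + 1) Y) :
    eT U Y P h (qC U Y P h x) = x ≫ U.cobar.q s Y :=
  AddEquiv.apply_symm_apply _ _

lemma qC_surjective {s : ℕ} {n t : ℤ} (h : n + (s : ℤ) = t) :
    Function.Surjective (qC U Y P h) := by
  intro z
  obtain ⟨c, hc⟩ := U.cobar.q_surjective (F := homT P t) s Y (eT U Y P h z)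
  refine ⟨c, ?_⟩
  apply (eT U Y P h).injective
  exact (eT_qC U Y P h c).trans hc

lemma d_qC {s : ℕ} {n m t : ℤ} (h : n = m + 1) (h1 : n + (s : ℤ) = t)
    (h2 : m + ((s + 1 : ℕ) : ℤ) = t) (x : P⟦t⟧ ⟶ U.cobar.Q (s + 1) Y) :
    ((U.tow Y).couple P).d s n m h (qC U Y P h1 x) =
      qC U Y P h2 (x ≫ U.cobar.d (s + 1) Y) := by
  apply (eT U Y P h2).injective
  rw [eT_d U Y P h h1 h2, eT_qC, eT_qC, Category.assoc, Category.assoc, CobarData.d_q]

/-- The image of a cocycle is a cocycle. -/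
lemma isCocycle_qC {s : ℕ} {n t : ℤ} (h : n + (s : ℤ) = t)
    (c : P⟦t⟧ ⟶ U.cobar.Q (s + 1) Y) (hc : c ≫ U.cobar.d (s + 1) Y = 0) :
    ((U.tow Y).couple P).IsCocycle (qC U Y P h c) := by
  intro m hm
  have h2 : m + ((s + 1 : ℕ) : ℤ) = t := by push_cast; omega
  rw [d_qC U Y P hm h h2, hc, map_zero]

/-- The image of a coboundary is a coboundary. -/
lemma isCobdy_qC {s : ℕ} {m t : ℤ} (h : m + ((s + 1 : ℕ) : ℤ) = t)
    (c : P⟦t⟧ ⟶ U.cobar.Q (s + 1) Y) :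
    ((U.tow Y).couple P).IsCobdy (qC U Y P h (c ≫ U.cobar.d (s + 1) Y)) := by
  have h1 : (m + 1) + (s : ℤ) = t := by push_cast at h; omega
  exact ⟨qC U Y P h1 c, d_qC U Y P rfl h1 h c⟩

/-- Vanishing of the `E_1`-term from the vanishing of the homotopy of the cobar objects. -/
theorem E_eq_zeroC {s : ℕ} {n t : ℤ} (h : n + (s : ℤ) = t)
    (h0 : ∀ x : P⟦t⟧ ⟶ U.cobar.Q (s + 1) Y, x = 0)
    (z : ((U.tow Y).couple P).E s n) : z = 0 := by
  obtain ⟨c, rfl⟩ := qC_surjective U Y P h z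
  rw [h0 c, map_zero]

/-- Every cocycle of the `E_1`-term comes from a cocycle of the cobar complex. -/
theorem exists_cocycle_qC {s : ℕ} {n t : ℤ} (h : n + (s : ℤ) = t)
    (z : ((U.tow Y).couple P).E s n) (hz : ((U.tow Y).couple P).IsCocycle z) :
    ∃ c : P⟦t⟧ ⟶ U.cobar.Q (s + 1) Y, c ≫ U.cobar.d (s + 1) Y = 0 ∧ qC U Y P h c = z := by
  have h2 : (n - 1) + ((s + 1 : ℕ) : ℤ) = t := by push_cast; omega
  have h3 := hz (n - 1) (by ring)
  have h4 := eT_d U Y P (by ring) h h2 z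
  rw [h3, map_zero] at h4
  obtain ⟨c, hc, hc'⟩ := U.cobar.exists_cocycle (F := homT P t) s Y (eT U Y P h z) h4.symm
  refine ⟨c, hc, ?_⟩
  apply (eT U Y P h).injective
  exact (eT_qC U Y P h c).trans hc'

/-- `Van` from the exactness of the cobar complex. -/
theorem van_of_exactC {s : ℕ} {m t : ℤ} (h : m + ((s + 1 : ℕ) : ℤ) = t)
    (hex : ∀ c : P⟦t⟧ ⟶ U.cobar.Q (s + 2) Y, c ≫ U.cobar.d (s + 2) Y = 0 →
      ∃ c' : P⟦t⟧ ⟶ U.cobar.Q (s + 1) Y, c' ≫ U.cobar.d (s + 1) Y = c) :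
    ((U.tow Y).couple P).Van s m := by
  intro b hb
  obtain ⟨c, hc, rfl⟩ := exists_cocycle_qC U Y P h b hb
  obtain ⟨c', rfl⟩ := hex c hc
  exact isCobdy_qC U Y P h c'

/-- A cocycle of the cobar complex whose image in the `E_1`-term is a coboundary is a
coboundary. -/
theorem exists_of_isCobdyC {s : ℕ} {m t : ℤ} (h : m + ((s + 1 : ℕ) : ℤ) = t)
    (c : P⟦t⟧ ⟶ U.cobar.Q (s + 2) Y) (hc : c ≫ U.cobar.d (s + 2) Y = 0)
    (hb : ((U.tow Y).couple P).IsCobdy (qC U Y P h c)) :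
    ∃ c' : P⟦t⟧ ⟶ U.cobar.Q (s + 1) Y, c' ≫ U.cobar.d (s + 1) Y = c := by
  obtain ⟨z, hz⟩ := hb
  have h1 : (m + 1) + (s : ℤ) = t := by push_cast at h; omega
  have h2 := congrArg (eT U Y P h) hz
  rw [eT_d U Y P rfl h1 h, eT_qC] at h2
  obtain ⟨c', hc', -⟩ := U.cobar.exists_cobdy (F := homT P t) s Y c hc
    (eT U Y P h1 z) h2.symm
  exact ⟨c', hc'⟩

/-- A cocycle of degree `0` of the cobar complex is determined by its image. -/
theorem qC_zero_injective {n t : ℤ} (h : n + ((0 : ℕ) : ℤ) = t) :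
    Function.Injective (qC U Y P h) := by
  rw [injective_iff_map_eq_zero]
  intro x hx
  have h2 := congrArg (eT U Y P h) hx
  rw [eT_qC, map_zero, CobarData.q_zero, Category.comp_id] at h2
  exact h2

end Vale.Agent.P257.V4.E
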