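import Vale.Agent.P257.V4.E.CompFin
import Vale.Agent.P257.V4.O.Final
import Vale.Agent.P251.F.LazWt

/-!
# P257 / V4, part E: the algebraic tower of part O for the Lazard ring

`ktowLaz p M : KTow cobK M (In p) (wv p) (zv p)` with `In p n = (nbS p).pre (NB.I p (n - 1))` (the
elements of `Cob Laz s` which vanish on all normal chains over `F_p`-algebras with
`v_1 = … = v_{n-1} = 0`), `wv p k = (p-1) N_k`, `zv p k = v_k` (`v_0 = p`).
-/

namespace Vale.Agent.P257.V4.E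

open Vale.Agent.P257.V4.O

/-! ### generic form -/

namespace RSurj

variable {K : CosR} {c : ℤ} {R : RCx} (S : RSurj K c R)

theorem ψ_mulw {s : ℕ} {a b e : ℤ} (h : a + b = e) (x : K.wt s a) (y : K.wt s b) :
    S.ψ s (K.mulw h x y).1 = S.ψ s x.1 * S.ψ s y.1 := map_mul (S.ψ s) x.1 y.1

theorem ψ_sub {s : ℕ} {a : ℤ} (x y : K.wt s a) :
    S.ψ s (x - y).1 = S.ψ s x.1 - S.ψ s y.1 := map_sub (S.ψ s) x.1 y.1

variable {I : ℕ → ∀ s, Ideal (R.A s)} {v : ℕ → ∀ s, R.A s} {N : ℕ → ℤ} {w : ℕ → ℤ}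
  {z : ∀ k, K.wt 0 (w k)}

theorem ktow_reg (T : RTower R I v N) (hc : ∀ s w x, ¬ c ∣ w → x ∈ K.wt s w → S.ψ s x = 0)
    (hvl : ∀ k s, S.ψ s (RMod.vl K (z (k + 1)) s).1 - v k s ∈ I k s)
    (k s : ℕ) {a b : ℤ} (h : a + w (k + 1) = b) (y : K.wt s a)
    (hy : K.mulw h y (RMod.vl K (z (k + 1)) s) ∈ S.pre (I k) s b) : y ∈ S.pre (I k) s a := by
  rw [mem_pre, ψ_mulw] at hy
  rw [mem_pre]
  by_cases ha : c ∣ a
  · obtain ⟨D, rfl⟩ := ha
    refine T.reg k s D _ (S.ψ_wt s D y.1 y.2) ?_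
    have h1 := Ideal.mul_mem_left _ (S.ψ s y.1) (hvl k s)
    have h2 := sub_mem hy h1
    have h3 : S.ψ s y.1 * S.ψ s (RMod.vl K (z (k + 1)) s).1 -
        S.ψ s y.1 * (S.ψ s (RMod.vl K (z (k + 1)) s).1 - v k s) = v k s * S.ψ s y.1 := by ring
    rwa [h3] at h2
  · rw [hc s a y.1 ha y.2]
    exact zero_mem _

theorem ktow_succ (T : RTower R I v N) (hc : ∀ s w x, ¬ c ∣ w → x ∈ K.wt s w → S.ψ s x = 0)
    (hw : ∀ k, w (k + 1) = c * N k)
    (hvl : ∀ k s, S.ψ s (RMod.vl K (z (k + 1)) s).1 - v k s ∈ I k s)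
    (k s : ℕ) {a b : ℤ} (h : a + w (k + 1) = b) (y : K.wt s b) :
    y ∈ S.pre (I (k + 1)) s b ↔
      ∃ y' : K.wt s a, y - K.mulw h y' (RMod.vl K (z (k + 1)) s) ∈ S.pre (I k) s b := by
  constructor
  · intro hy
    by_cases hb : c ∣ b
    · obtain ⟨D, rfl⟩ := hb
      have ha : c * (D - N k) = a := by
        rw [hw] at h
        linear_combination -h
      obtain ⟨x, hx, hxy⟩ := T.I_succ k s D _ (S.ψ_wt s D y.1 y.2) hy
      obtain ⟨u, hu, rfl⟩ := S.ψ_surj s _ x hx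
      rw [ha] at hu
      refine ⟨⟨u, hu⟩, ?_⟩
      rw [mem_pre, ψ_sub, ψ_mulw]
      have h1 := Ideal.mul_mem_left _ (S.ψ s u) (hvl k s)
      have h2 := sub_mem hxy h1
      have h3 : S.ψ s y.1 - v k s * S.ψ s u -
          S.ψ s u * (S.ψ s (RMod.vl K (z (k + 1)) s).1 - v k s) =
          S.ψ s y.1 - S.ψ s u * S.ψ s (RMod.vl K (z (k + 1)) s).1 := by ring
      rwa [h3] at h2
    · refine ⟨0, ?_⟩
      rw [mem_pre, ψ_sub, ψ_mulw, hc s b y.1 hb y.2]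
      have : S.ψ s (0 : K.wt s a).1 = 0 := map_zero (S.ψ s)
      rw [this, zero_mul, sub_zero]
      exact zero_mem _
  · rintro ⟨y', hy'⟩
    rw [mem_pre, ψ_sub, ψ_mulw] at hy'
    rw [mem_pre]
    have h1 : S.ψ s (RMod.vl K (z (k + 1)) s).1 ∈ I (k + 1) s := by
      have := add_mem (T.mono k s (hvl k s)) (T.v_mem k s)
      rwa [sub_add_cancel] at this
    have h2 := add_mem (T.mono k s hy') (Ideal.mul_mem_left _ (S.ψ s y'.1) h1)
    rwa [sub_add_cancel] at h2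

theorem mono_le (T : RTower R I v N) {k l : ℕ} (h : k ≤ l) (s : ℕ) : I k s ≤ I l s := by
  induction h with
  | refl => exact le_rfl
  | step _ ih => exact ih.trans (T.mono _ s)

theorem d_v_mem (T : RTower R I v N) (k : ℕ) : R.d 0 (v k 0) ∈ I k 1 := by
  rw [RCx.d_apply, Fin.sum_univ_two]
  have h2 := sub_mem (T.δ_v k 0 0) (T.δ_v k 0 1)
  have h3 : ((-1 : ℤ) ^ ((0 : Fin 2) : ℕ)) • R.δ 0 0 (v k 0) +
      ((-1 : ℤ) ^ ((1 : Fin 2) : ℕ)) • R.δ 0 1 (v k 0) =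
      R.δ 0 0 (v k 0) - v k 1 - (R.δ 0 1 (v k 0) - v k 1) := by
    simp
    ring
  rw [h3]
  exact h2

/-- The algebraic tower of part O, generic form: `I_n` is the preimage of `I (n-1)`. -/
theorem ktow (T : RTower R I v N) (hc : ∀ s w x, ¬ c ∣ w → x ∈ K.wt s w → S.ψ s x = 0)
    (hw : ∀ k, w (k + 1) = c * N k) (hz0 : S.ψ 0 (z 0).1 = 0)
    (hz : ∀ k, S.ψ 0 (z (k + 1)).1 = v k 0)
    (hvl : ∀ k s, S.ψ s (RMod.vl K (z (k + 1)) s).1 - v k s ∈ I k s) (M : ℕ) :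
    KTow K M (fun n => S.pre (I (n - 1))) w z where
  zero n k hn _ hk := by
    obtain ⟨n, rfl⟩ := Nat.exists_eq_add_of_le' hn
    rw [mem_pre, Nat.add_sub_cancel]
    cases k with
    | zero =>
      rw [hz0]
      exact zero_mem _
    | succ k =>
      rw [hz]
      exact mono_le T (by omega) 0 (T.v_mem k 0)
  coc n hn _ := by
    obtain ⟨n, rfl⟩ := Nat.exists_eq_add_of_le' hn
    rw [mem_pre, Nat.add_sub_cancel, CosR.coe_d, ψ_d, hz]
    exact d_v_mem T n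
  reg n hn _ s a b h y hy := by
    obtain ⟨n, rfl⟩ := Nat.exists_eq_add_of_le' hn
    exact S.ktow_reg T hc hvl n s h y hy
  succ n hn _ s a b h y := by
    obtain ⟨n, rfl⟩ := Nat.exists_eq_add_of_le' hn
    exact S.ktow_succ T hc hw hvl n s h y

end RSurj

/-! ### the Lazard ring -/

open Vale.Agent.P251.F Vale.Agent.P257.V4.B

variable (p : ℕ) [hp : Fact p.Prime]

/-- The weight of `v_k`. -/
def wv (k : ℕ) : ℤ := ((p : ℤ) - 1) * (A.Ch.N p k : ℕ)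

theorem wv_eq (k : ℕ) : wv p k = ((p ^ k - 1 : ℕ) : ℤ) := by
  rw [wv, ← N_mul_eq hp.out.one_lt.le, Nat.cast_mul, Nat.cast_sub hp.out.one_lt.le, Nat.cast_one]

theorem isWt_C_v (k : ℕ) : Cob.IsWt (wv p k) (MvPolynomial.C (Laz.v p k) : Cob Laz 0) := by
  rw [wv_eq]
  exact Laz.isWt_C_v hp.out.ne_zero k

/-- The elements `v_k`, `v_0 = p`. -/
noncomputable def zv (k : ℕ) : cobK.wt 0 (wv p k) :=
  ⟨(MvPolynomial.C (Laz.v p k) : Cob Laz 0), isWt_C_v p k⟩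

/-- `I_n` : the elements which vanish on all normal chains over `F_p`-algebras with
`v_1 = … = v_{n-1} = 0`. -/
noncomputable def In (n : ℕ) : ∀ (s : ℕ) (w : ℤ), AddSubgroup (cobK.wt s w) :=
  (nbS p).pre (NB.I p (n - 1))

theorem toNB_C_v_zero : toNB p 0 (MvPolynomial.C (Laz.v p 0)) = 0 := by
  rw [toNB, Cob.ev_C, UN_pt, Laz.lift_v, vv_zero]
  exact p_eq_zero p _

theorem toNB_map_C_v (k s : ℕ) (α : Fin (0 + 1) → Fin (s + 1)) :
    toNB p s (Cob.map α (MvPolynomial.C (Laz.v p (k + 1)))) - NB.v k ∈ NB.I p k s := by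
  rw [toNB_map, toNB_v]
  exact NB.map_v_sub_mem _ k

theorem nbS_ψ (s : ℕ) (x : Cob Laz s) : (nbS p).ψ s x = toNB p s x := rfl

theorem vl_coe (k s : ℕ) : (RMod.vl cobK (zv p (k + 1)) s).1 =
    Cob.map (fun _ => Fin.last s) (MvPolynomial.C (Laz.v p (k + 1)) : Cob Laz 0) := rfl

theorem nbS_vl (k s : ℕ) :
    (nbS p).ψ s (RMod.vl cobK (zv p (k + 1)) s).1 - nbv p k s ∈ NB.I p k s :=
  toNB_map_C_v p k s _

theorem nbS_zero : (nbS p).ψ 0 (zv p 0).1 = 0 := toNB_C_v_zero p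

theorem nbS_succ (k : ℕ) : (nbS p).ψ 0 (zv p (k + 1)).1 = nbv p k 0 := toNB_v k

theorem nbS_wt (s : ℕ) (w : ℤ) (x : cobK.A s) (hw : ¬ ((p : ℤ) - 1) ∣ w)
    (hx : x ∈ cobK.wt s w) : (nbS p).ψ s x = 0 := toNB_eq_zero hw hx

/-- **The algebraic tower of the Lazard ring.** -/
theorem ktowLaz (M : ℕ) : KTow cobK M (In p) (wv p) (zv p) :=
  (nbS p).ktow (nbT p) (nbS_wt p) (fun _ => rfl) (nbS_zero p) (nbS_succ p) (nbS_vl p) M

end Vale.Agent.P257.V4.E
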