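import Vale.Agent.P257.V4.E.Comp
import Mathlib.RingTheory.Ideal.Basic
import Mathlib.RingTheory.Ideal.Maps
import Mathlib.Algebra.BigOperators.Fin

/-!
# P257 / V4, part E, block E-3: algebraic comparison, ring form

`RCx` : graded commutative rings `A s` with coface ring homomorphisms `δ s i : A s → A (s+1)` and
`d = ∑ (-1)^i δ_i`, `d d = 0`.
`RTower` : ideals `I k s` and elements `v k s ∈ A s` (the element `v_k` at one fixed vertex)
with the properties of `I_k = (v_j, j < k)` in the cobar complex of `BP_*`.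
`RTower.vtower` : these data form a `VTower`, so the comparison theorems of `Comp` apply.
-/

namespace Vale.Agent.P257.V4.E

/-- Graded commutative rings with coface homomorphisms. -/
structure RCx where
  A : ℕ → Type
  [ring : ∀ s, CommRing (A s)]
  δ : ∀ s, Fin (s + 2) → (A s →+* A (s + 1))
  W : ∀ s, ℤ → AddSubgroup (A s)
  mul_wt : ∀ s a b x y, x ∈ W s a → y ∈ W s b → x * y ∈ W s (a + b)
  δ_wt : ∀ s i D x, x ∈ W s D → δ s i x ∈ W (s + 1) D
  d_d : ∀ s x, ∑ i : Fin (s + 3), ((-1 : ℤ) ^ (i : ℕ)) • δ (s + 1) i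
    (∑ j : Fin (s + 2), ((-1 : ℤ) ^ (j : ℕ)) • δ s j x) = 0

attribute [instance] RCx.ring

namespace RCx

variable (R : RCx)

/-- the differential -/
def d (s : ℕ) : R.A s →+ R.A (s + 1) where
  toFun x := ∑ i : Fin (s + 2), ((-1 : ℤ) ^ (i : ℕ)) • R.δ s i x
  map_zero' := by simp
  map_add' x y := by simp [Finset.sum_add_distrib]

theorem d_apply (s : ℕ) (x : R.A s) :
    R.d s x = ∑ i : Fin (s + 2), ((-1 : ℤ) ^ (i : ℕ)) • R.δ s i x := rfl

theorem d_mem (s : ℕ) (x : R.A s) (G : AddSubgroup (R.A (s + 1)))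
    (h : ∀ i, R.δ s i x ∈ G) : R.d s x ∈ G := by
  rw [d_apply]
  exact sum_mem fun i _ => zsmul_mem (h i) _

/-- the underlying graded complex -/
def cx : GrCx where
  A := R.A
  d := R.d
  W := R.W
  d_d := R.d_d
  d_wt s D x hx := R.d_mem s x _ fun i => R.δ_wt s i D x hx

@[simp] theorem cx_A (s : ℕ) : R.cx.A s = R.A s := rfl

end RCx

/-- The ideals `I_k = (v_j : j < k)` and the elements `v_k`. -/
structure RTower (R : RCx) (I : ℕ → ∀ s, Ideal (R.A s)) (v : ℕ → ∀ s, R.A s) (N : ℕ → ℤ) :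
    Prop where
  v_wt : ∀ k s, v k s ∈ R.W s (N k)
  δ_I : ∀ k s i x, x ∈ I k s → R.δ s i x ∈ I k (s + 1)
  δ_v : ∀ k s i, R.δ s i (v k s) - v k (s + 1) ∈ I k (s + 1)
  reg : ∀ k s D x, x ∈ R.W s D → v k s * x ∈ I k s → x ∈ I k s
  v_mem : ∀ k s, v k s ∈ I (k + 1) s
  mono : ∀ k s, I k s ≤ I (k + 1) s
  I_succ : ∀ k s D x, x ∈ R.W s D → x ∈ I (k + 1) s →
    ∃ y ∈ R.W s (D - N k), x - v k s * y ∈ I k s

namespace RTower

variable {R : RCx} {I : ℕ → ∀ s, Ideal (R.A s)} {v : ℕ → ∀ s, R.A s} {N : ℕ → ℤ}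

/-- the ideals as subgroups -/
def sub (I : ℕ → ∀ s, Ideal (R.A s)) (k s : ℕ) : AddSubgroup (R.cx.A s) := (I k s).toAddSubgroup

theorem mem_sub {k s : ℕ} {x : R.A s} : x ∈ sub I k s ↔ x ∈ I k s := Iff.rfl

/-- multiplication by `v_k` -/
def mulv (v : ℕ → ∀ s, R.A s) (k s : ℕ) : R.cx.A s →+ R.cx.A s := AddMonoidHom.mulLeft (v k s)

theorem mulv_apply (k s : ℕ) (x : R.A s) : mulv v k s x = v k s * x := rfl

theorem mulv_mem (k s : ℕ) (x : R.A s) (hx : x ∈ I k s) : v k s * x ∈ I k s :=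
  (I k s).mul_mem_left _ hx

theorem v_mul_mem (T : RTower R I v N) (k s : ℕ) (x : R.A s) : v k s * x ∈ I (k + 1) s :=
  (I (k + 1) s).mul_mem_right x (T.v_mem k s)

theorem V_wt (T : RTower R I v N) (k s : ℕ) (D : ℤ) (x : R.A s) (hx : x ∈ R.W s D) :
    v k s * x ∈ R.W s (D + N k) := by
  rw [add_comm]
  exact R.mul_wt s _ _ _ _ (T.v_wt k s) hx

theorem V_d (T : RTower R I v N) (k s : ℕ) (x : R.A s) :
    R.d s (v k s * x) - v k (s + 1) * R.d s x ∈ I k (s + 1) := by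
  rw [R.d_apply, R.d_apply, Finset.mul_sum, ← Finset.sum_sub_distrib]
  refine sum_mem fun i _ => ?_
  rw [mul_smul_comm, ← smul_sub, map_mul, ← sub_mul]
  exact zsmul_mem (S := Ideal (R.A (s + 1))) (Ideal.mul_mem_right _ _ (T.δ_v k s i)) _

theorem vtower (T : RTower R I v N) : VTower R.cx (sub I) (mulv v) N where
  d_I k s x hx := R.d_mem s x _ fun i => T.δ_I k s i x hx
  V_wt k s D x hx := T.V_wt k s D x hx
  V_I k s x hx := mulv_mem k s x hx
  V_inj k s D x hx h := T.reg k s D x hx h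
  V_d k s x := T.V_d k s x
  V_mem k s x := T.v_mul_mem k s x
  mono k s := T.mono k s
  I_succ k s D x hx h := T.I_succ k s D x hx h

end RTower

end Vale.Agent.P257.V4.E
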