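import Vale.Agent.P257.V4.A.Wt
import Vale.Agent.P257.V4.A.Out
import Vale.Agent.P257.V4.E.CompRing

/-!
# P257 / V4, part E, block E-3: the cobar complex `Ch p` of `P_*` as a graded complex

`chR p : RCx` has `A s = Ch p s`, `W s D` = elements of weight `D` (zero for `D < 0`).
`van0_iff` : `(chR p).cx.Van0 s D ↔ Ch.Van p s D`.
-/

namespace Vale.Agent.P257.V4.E

open Vale.Agent.P257.V4.A

variable (p : ℕ) [Fact p.Prime]

/-- The elements of weight `D : ℤ`. -/
def chW (s : ℕ) (D : ℤ) : AddSubgroup (Ch p s) where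
  carrier := {x | (0 ≤ D ∧ Ch.IsWt D.toNat x) ∨ x = 0}
  zero_mem' := Or.inr rfl
  add_mem' := by
    rintro x y (⟨h, hx⟩ | rfl) (⟨h', hy⟩ | rfl)
    · exact Or.inl ⟨h, hx.add hy⟩
    · rw [add_zero]
      exact Or.inl ⟨h, hx⟩
    · rw [zero_add]
      exact Or.inl ⟨h', hy⟩
    · rw [add_zero]
      exact Or.inr rfl
  neg_mem' := by
    rintro x (⟨h, hx⟩ | rfl)
    · exact Or.inl ⟨h, hx.neg⟩
    · rw [neg_zero]
      exact Or.inr rfl

variable {p}

theorem mem_chW_nat {s D : ℕ} {x : Ch p s} : x ∈ chW p s (D : ℤ) ↔ Ch.IsWt D x := by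
  constructor
  · rintro (⟨-, h⟩ | rfl)
    · exact h
    · exact Ch.isWt_zero D
  · intro h
    exact Or.inl ⟨Int.natCast_nonneg D, h⟩

theorem eq_zero_of_mem_chW {s : ℕ} {D : ℤ} (hD : D < 0) {x : Ch p s} (hx : x ∈ chW p s D) :
    x = 0 := by
  rcases hx with ⟨h, -⟩ | h
  · omega
  · exact h

theorem chW_map {m n : ℕ} (α : Fin (m + 1) → Fin (n + 1)) {D : ℤ} {x : Ch p m}
    (hx : x ∈ chW p m D) : Ch.map α x ∈ chW p n D := by
  rcases hx with ⟨h, hx⟩ | rfl
  · exact Or.inl ⟨h, Ch.map_isWt α hx⟩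
  · exact Or.inr (map_zero _)

theorem chW_mul {s : ℕ} {D E : ℤ} {x y : Ch p s} (hx : x ∈ chW p s D) (hy : y ∈ chW p s E) :
    x * y ∈ chW p s (D + E) := by
  rcases hx with ⟨h, hx⟩ | rfl
  · rcases hy with ⟨h', hy⟩ | rfl
    · exact Or.inl ⟨by omega, (hx.mul hy).cast (by omega)⟩
    · exact Or.inr (mul_zero _)
  · exact Or.inr (zero_mul _)

variable (p)

/-- The cobar complex of `P_*`. -/
noncomputable def chR : RCx where
  A := Ch p
  δ s i := Ch.map (Fin.succAbove i)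
  W := chW p
  mul_wt _ _ _ _ _ := chW_mul
  δ_wt _ _ _ _ := chW_map _
  d_d s x := by
    have h := Ch.d_d x
    rw [Ch.d_apply, Ch.d_apply] at h
    exact h

variable {p}

theorem chR_d (s : ℕ) (x : Ch p s) : (chR p).cx.d s x = Ch.d s x := (Ch.d_apply x).symm

/-- `Van0` of the graded complex is `Ch.Van`. -/
theorem van0_iff (s D : ℕ) : (chR p).cx.Van0 s (D : ℤ) ↔ Ch.Van p s D := by
  cases s with
  | zero =>
    constructor
    · intro h z hz hd
      exact h z (mem_chW_nat.2 hz) ((chR_d 0 z).trans hd)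
    · intro h z hz hd
      exact h z (mem_chW_nat.1 hz) ((chR_d 0 z).symm.trans hd)
  | succ s =>
    constructor
    · intro h z hz hd
      obtain ⟨y, -, e⟩ := h z (mem_chW_nat.2 hz) ((chR_d (s + 1) z).trans hd)
      exact ⟨y, (chR_d s y).symm.trans e.symm⟩
    · intro h z hz hd
      have hz' : Ch.IsWt D z := mem_chW_nat.1 hz
      obtain ⟨y, hy⟩ := h z hz' ((chR_d (s + 1) z).symm.trans hd)
      obtain ⟨y', hy', e⟩ := Ch.exists_isWt_of_d_eq hz' hy
      exact ⟨y', mem_chW_nat.2 hy', (e.symm).trans (chR_d s y').symm⟩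

theorem van0_neg (s : ℕ) {D : ℤ} (hD : D < 0) : (chR p).cx.Van0 s D := by
  intro z hz _
  have : z = 0 := eq_zero_of_mem_chW hD hz
  subst this
  cases s with
  | zero => exact rfl
  | succ s => exact ⟨0, zero_mem _, ((chR p).cx.d s).map_zero.symm⟩

/-- From `OutLow`: no cohomology below the diagonal. -/
theorem van0_low (h : OutLow p) (s : ℕ) (D : ℤ) (hD : D < s) : (chR p).cx.Van0 s D := by
  by_cases h0 : D < 0
  · exact van0_neg s h0
  · obtain ⟨n, rfl⟩ := Int.eq_ofNat_of_zero_le (not_lt.1 h0)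
    exact (van0_iff s n).2 (h s n (by exact_mod_cast hD))

end Vale.Agent.P257.V4.E
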