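import Mathlib.Algebra.Group.Subgroup.Basic
import Mathlib.Algebra.Group.Submonoid.Basic
import Mathlib.Algebra.Order.Group.Int
import Mathlib.Data.Set.Image
import Mathlib.Order.Interval.Set.Basic
import Mathlib.Tactic.Abel
import Mathlib.Tactic.Ring
import Mathlib.Tactic.Linarith

/-!
# P257 / V4, part E, block E-3: algebraic comparison (abstract, additive form)

`A 0 → A 1 → …` is a graded complex (`W s D` = elements of degree `D` of `A s`), `I k s ≤ A s` an
increasing family of subcomplexes (think of `A s / I k s` as the cobar complex `M_k` of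
`BP_*/I_k`), `V k s : A s → A s` multiplication by `v_k`, homogeneous of degree `N k`, which is
a chain map modulo `I k`, injective modulo `I k`, with `I (k+1) = I k + im (V k)`.

* `VTower.van` : if in the limit complex `M_∞` all `H^s` in the degrees `D - w`, `w` in the
  semigroup generated by the `N j`, `j ≥ k`, vanish, then `H^s(M_k)_D = 0`.
* `VTower.inj` : under the same hypothesis for `w ≠ 0` only: a cocycle of `M_k` of degree `D` which
  is a coboundary in `M_∞` is a coboundary in `M_k`.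
* `VTower.lift` : if `H^(s+1)(M_∞)_(D-w) = 0` for all such `w ≠ 0`, every cocycle of `M_∞` of degree
  `D` lifts to a cocycle of `M_k`.

`M_∞` is given by a chain map `φ` to a graded complex `C`, surjective in every degree, whose kernel
in degree `D` is `I k s` for every `k` with `D < N k`.
-/

namespace Vale.Agent.P257.V4.E

/-- A graded complex of abelian groups. -/
structure GrCx where
  A : ℕ → Type
  [grp : ∀ s, AddCommGroup (A s)]
  d : ∀ s, A s →+ A (s + 1)
  W : ∀ s, ℤ → AddSubgroup (A s)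
  d_d : ∀ s x, d (s + 1) (d s x) = 0
  d_wt : ∀ s D x, x ∈ W s D → d s x ∈ W (s + 1) D

attribute [instance] GrCx.grp

namespace GrCx

variable (K : GrCx)

/-- `z` is a coboundary (of an element of degree `D`) modulo the subgroups `I s`. -/
def Bd (I : ∀ s, AddSubgroup (K.A s)) (D : ℤ) : ∀ s, K.A s → Prop
  | 0, z => z ∈ I 0
  | s + 1, z => ∃ y ∈ K.W s D, z - K.d s y ∈ I (s + 1)

/-- `H^s` of the quotient complex `K / I` vanishes in degree `D`. -/
def Van (I : ∀ s, AddSubgroup (K.A s)) (s : ℕ) (D : ℤ) : Prop :=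
  ∀ z ∈ K.W s D, K.d s z ∈ I (s + 1) → K.Bd I D s z

end GrCx

/-- The tower of quotient complexes `M_k`. -/
structure VTower (K : GrCx) (I : ℕ → ∀ s, AddSubgroup (K.A s)) (V : ℕ → ∀ s, K.A s →+ K.A s)
    (N : ℕ → ℤ) : Prop where
  d_I : ∀ k s x, x ∈ I k s → K.d s x ∈ I k (s + 1)
  V_wt : ∀ k s D x, x ∈ K.W s D → V k s x ∈ K.W s (D + N k)
  V_I : ∀ k s x, x ∈ I k s → V k s x ∈ I k s
  V_inj : ∀ k s D x, x ∈ K.W s D → V k s x ∈ I k s → x ∈ I k s
  V_d : ∀ k s x, K.d s (V k s x) - V k (s + 1) (K.d s x) ∈ I k (s + 1)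
  V_mem : ∀ k s x, V k s x ∈ I (k + 1) s
  mono : ∀ k s, I k s ≤ I (k + 1) s
  I_succ : ∀ k s D x, x ∈ K.W s D → x ∈ I (k + 1) s → ∃ y ∈ K.W s (D - N k), x - V k s y ∈ I k s

namespace VTower

variable {K : GrCx} {I : ℕ → ∀ s, AddSubgroup (K.A s)} {V : ℕ → ∀ s, K.A s →+ K.A s} {N : ℕ → ℤ}

theorem mono_le (T : VTower K I V N) {k l : ℕ} (h : k ≤ l) (s : ℕ) : I k s ≤ I l s := by
  induction h with
  | refl => exact le_rfl
  | step _ ih => exact ih.trans (T.mono _ s)

/-- one step, vanishing -/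
theorem van_step (T : VTower K I V N) (k s : ℕ) (D : ℤ) (h1 : K.Van (I (k + 1)) s D)
    (h2 : K.Van (I k) s (D - N k)) : K.Van (I k) s D := by
  intro z hz hdz
  have h3 := h1 z hz (T.mono k _ hdz)
  cases s with
  | zero =>
    change z ∈ I k 0
    change z ∈ I (k + 1) 0 at h3
    obtain ⟨x, hx, hzx⟩ := T.I_succ k 0 D z hz h3
    have hdx : V k 1 (K.d 0 x) ∈ I k 1 := by
      have e1 := T.V_d k 0 x
      have e2 := T.d_I k 0 _ hzx
      rw [map_sub] at e2
      have : V k 1 (K.d 0 x) = K.d 0 z - (K.d 0 z - K.d 0 (V k 0 x)) -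
          (K.d 0 (V k 0 x) - V k 1 (K.d 0 x)) := by abel
      rw [this]
      exact sub_mem (sub_mem hdz e2) e1
    have hdx' := T.V_inj k 1 _ _ (K.d_wt 0 _ x hx) hdx
    have hx0 : x ∈ I k 0 := h2 x hx hdx'
    have := T.V_I k 0 x hx0
    have e : z = (z - V k 0 x) + V k 0 x := by abel
    rw [e]
    exact add_mem hzx this
  | succ s =>
    obtain ⟨y, hy, hzy⟩ := h3
    have hzyW : z - K.d s y ∈ K.W (s + 1) D := sub_mem hz (K.d_wt s D y hy)
    obtain ⟨x, hx, hzx⟩ := T.I_succ k (s + 1) D _ hzyW hzy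
    have hdzy : K.d (s + 1) (z - K.d s y) = K.d (s + 1) z := by
      rw [map_sub, K.d_d, sub_zero]
    have hdx : V k (s + 2) (K.d (s + 1) x) ∈ I k (s + 2) := by
      have e1 := T.V_d k (s + 1) x
      have e2 := T.d_I k (s + 1) _ hzx
      rw [map_sub, hdzy] at e2
      have : V k (s + 2) (K.d (s + 1) x) = K.d (s + 1) z -
          (K.d (s + 1) z - K.d (s + 1) (V k (s + 1) x)) -
          (K.d (s + 1) (V k (s + 1) x) - V k (s + 2) (K.d (s + 1) x)) := by abel
      rw [this]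
      exact sub_mem (sub_mem hdz e2) e1
    have hdx' := T.V_inj k (s + 2) _ _ (K.d_wt (s + 1) _ x hx) hdx
    obtain ⟨y', hy', hxy'⟩ := h2 x hx hdx'
    refine ⟨y + V k s y', add_mem hy ?_, ?_⟩
    · have := T.V_wt k s _ y' hy'
      rwa [sub_add_cancel] at this
    · have e1 := T.V_I k (s + 1) _ hxy'
      rw [map_sub] at e1
      have e2 := T.V_d k s y'
      rw [map_add]
      have : z - (K.d s y + K.d s (V k s y')) = (z - K.d s y - V k (s + 1) x) +
          (V k (s + 1) x - V k (s + 1) (K.d s y')) -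
          (K.d s (V k s y') - V k (s + 1) (K.d s y')) := by abel
      rw [this]
      exact sub_mem (add_mem hzx e1) e2

/-- one step, injectivity -/
theorem inj_step (T : VTower K I V N) (k s : ℕ) (D : ℤ)
    (h2 : K.Van (I k) s (D - N k)) (z : K.A s) (hz : z ∈ K.W s D) (hdz : K.d s z ∈ I k (s + 1))
    (h3 : K.Bd (I (k + 1)) D s z) : K.Bd (I k) D s z := by
  cases s with
  | zero =>
    change z ∈ I k 0
    change z ∈ I (k + 1) 0 at h3
    obtain ⟨x, hx, hzx⟩ := T.I_succ k 0 D z hz h3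
    have hdx : V k 1 (K.d 0 x) ∈ I k 1 := by
      have e1 := T.V_d k 0 x
      have e2 := T.d_I k 0 _ hzx
      rw [map_sub] at e2
      have : V k 1 (K.d 0 x) = K.d 0 z - (K.d 0 z - K.d 0 (V k 0 x)) -
          (K.d 0 (V k 0 x) - V k 1 (K.d 0 x)) := by abel
      rw [this]
      exact sub_mem (sub_mem hdz e2) e1
    have hdx' := T.V_inj k 1 _ _ (K.d_wt 0 _ x hx) hdx
    have hx0 : x ∈ I k 0 := h2 x hx hdx'
    have := T.V_I k 0 x hx0
    have e : z = (z - V k 0 x) + V k 0 x := by abel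
    rw [e]
    exact add_mem hzx this
  | succ s =>
    obtain ⟨y, hy, hzy⟩ := h3
    have hzyW : z - K.d s y ∈ K.W (s + 1) D := sub_mem hz (K.d_wt s D y hy)
    obtain ⟨x, hx, hzx⟩ := T.I_succ k (s + 1) D _ hzyW hzy
    have hdzy : K.d (s + 1) (z - K.d s y) = K.d (s + 1) z := by
      rw [map_sub, K.d_d, sub_zero]
    have hdx : V k (s + 2) (K.d (s + 1) x) ∈ I k (s + 2) := by
      have e1 := T.V_d k (s + 1) x
      have e2 := T.d_I k (s + 1) _ hzx
      rw [map_sub, hdzy] at e2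
      have : V k (s + 2) (K.d (s + 1) x) = K.d (s + 1) z -
          (K.d (s + 1) z - K.d (s + 1) (V k (s + 1) x)) -
          (K.d (s + 1) (V k (s + 1) x) - V k (s + 2) (K.d (s + 1) x)) := by abel
      rw [this]
      exact sub_mem (sub_mem hdz e2) e1
    have hdx' := T.V_inj k (s + 2) _ _ (K.d_wt (s + 1) _ x hx) hdx
    obtain ⟨y', hy', hxy'⟩ := h2 x hx hdx'
    refine ⟨y + V k s y', add_mem hy ?_, ?_⟩
    · have := T.V_wt k s _ y' hy'
      rwa [sub_add_cancel] at this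
    · have e1 := T.V_I k (s + 1) _ hxy'
      rw [map_sub] at e1
      have e2 := T.V_d k s y'
      rw [map_add]
      have : z - (K.d s y + K.d s (V k s y')) = (z - K.d s y - V k (s + 1) x) +
          (V k (s + 1) x - V k (s + 1) (K.d s y')) -
          (K.d s (V k s y') - V k (s + 1) (K.d s y')) := by abel
      rw [this]
      exact sub_mem (add_mem hzx e1) e2

/-- one step, lifting of cocycles -/
theorem lift_step (T : VTower K I V N) (k s : ℕ) (D : ℤ)
    (h2 : K.Van (I k) (s + 1) (D - N k)) (z : K.A s) (hz : z ∈ K.W s D)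
    (hdz : K.d s z ∈ I (k + 1) (s + 1)) :
    ∃ z' ∈ K.W s D, K.d s z' ∈ I k (s + 1) ∧ z - z' ∈ I (k + 1) s := by
  obtain ⟨x, hx, hzx⟩ := T.I_succ k (s + 1) D _ (K.d_wt s D z hz) hdz
  have hdx : V k (s + 2) (K.d (s + 1) x) ∈ I k (s + 2) := by
    have e1 := T.V_d k (s + 1) x
    have e2 := T.d_I k (s + 1) _ hzx
    rw [map_sub, K.d_d, zero_sub] at e2
    have : V k (s + 2) (K.d (s + 1) x) = - (- K.d (s + 1) (V k (s + 1) x)) -
        (K.d (s + 1) (V k (s + 1) x) - V k (s + 2) (K.d (s + 1) x)) := by abel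
    rw [this]
    exact sub_mem (neg_mem e2) e1
  have hdx' := T.V_inj k (s + 2) _ _ (K.d_wt (s + 1) _ x hx) hdx
  obtain ⟨y, hy, hxy⟩ := h2 x hx hdx'
  refine ⟨z - V k s y, sub_mem hz ?_, ?_, ?_⟩
  · have := T.V_wt k s _ y hy
    rwa [sub_add_cancel] at this
  · have e1 := T.V_I k (s + 1) _ hxy
    rw [map_sub] at e1
    have e2 := T.V_d k s y
    rw [map_sub]
    have : K.d s z - K.d s (V k s y) = (K.d s z - V k (s + 1) x) +
        (V k (s + 1) x - V k (s + 1) (K.d s y)) -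
        (K.d s (V k s y) - V k (s + 1) (K.d s y)) := by abel
    rw [this]
    exact sub_mem (add_mem hzx e1) e2
  · rw [sub_sub_cancel]
    exact T.V_mem k s y

/-- The semigroup (with `0`) generated by the degrees `N j`, `j ≥ k`. -/
def SG (N : ℕ → ℤ) (k : ℕ) : AddSubmonoid ℤ := AddSubmonoid.closure (N '' Set.Ici k)

theorem SG_mono {N : ℕ → ℤ} {k l : ℕ} (h : k ≤ l) : SG N l ≤ SG N k :=
  AddSubmonoid.closure_mono (Set.image_mono (Set.Ici_subset_Ici.2 h))

theorem N_mem_SG {N : ℕ → ℤ} {k l : ℕ} (h : k ≤ l) : N l ∈ SG N k :=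
  AddSubmonoid.subset_closure ⟨l, h, rfl⟩

theorem SG_nonneg {N : ℕ → ℤ} {k : ℕ} (hN : ∀ j, k ≤ j → 0 ≤ N j) {w : ℤ} (hw : w ∈ SG N k) :
    0 ≤ w := by
  induction hw using AddSubmonoid.closure_induction with
  | mem x hx => obtain ⟨j, hj, rfl⟩ := hx; exact hN j hj
  | zero => exact le_rfl
  | add x y _ _ hx hy => exact add_nonneg hx hy

/-- every nonzero element of the semigroup is at least `b` if all generators are -/
theorem SG_ge {N : ℕ → ℤ} {k : ℕ} {b : ℤ} (hb : 0 ≤ b) (hN : ∀ j, k ≤ j → b ≤ N j) {w : ℤ}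
    (hw : w ∈ SG N k) : w = 0 ∨ b ≤ w := by
  induction hw using AddSubmonoid.closure_induction with
  | mem x hx => obtain ⟨j, hj, rfl⟩ := hx; exact Or.inr (hN j hj)
  | zero => exact Or.inl rfl
  | add x y _ _ hx hy =>
    rcases hx with rfl | hx
    · rcases hy with rfl | hy
      · exact Or.inl (add_zero 0)
      · exact Or.inr (by omega)
    · rcases hy with rfl | hy
      · exact Or.inr (by omega)
      · exact Or.inr (by omega)

end VTower

/-- The limit complex: a chain map `φ` to a graded complex `C`, onto in every degree, with kernel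
`I k s` in degrees `D < N k`. -/
structure VLim (K : GrCx) (I : ℕ → ∀ s, AddSubgroup (K.A s)) (N : ℕ → ℤ) (C : GrCx) where
  φ : ∀ s, K.A s →+ C.A s
  φ_d : ∀ s x, φ (s + 1) (K.d s x) = C.d s (φ s x)
  φ_wt : ∀ s D x, x ∈ K.W s D → φ s x ∈ C.W s D
  φ_surj : ∀ s D y, y ∈ C.W s D → ∃ x ∈ K.W s D, φ s x = y
  φ_I : ∀ k s x, x ∈ I k s → φ s x = 0
  φ_ker : ∀ k s D x, x ∈ K.W s D → D < N k → φ s x = 0 → x ∈ I k s

namespace GrCx

/-- coboundaries of a graded complex -/
def Bd0 (C : GrCx) (D : ℤ) : ∀ s, C.A s → Prop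
  | 0, z => z = 0
  | s + 1, z => ∃ y ∈ C.W s D, z = C.d s y

/-- `H^s(C)_D = 0` -/
def Van0 (C : GrCx) (s : ℕ) (D : ℤ) : Prop :=
  ∀ z ∈ C.W s D, C.d s z = 0 → C.Bd0 D s z

end GrCx

namespace VLim

variable {K C : GrCx} {I : ℕ → ∀ s, AddSubgroup (K.A s)} {V : ℕ → ∀ s, K.A s →+ K.A s}
  {N : ℕ → ℤ}

/-- Coboundaries of the limit complex, in degrees where `C` and `M_k` agree. -/
theorem bd_of (L : VLim K I N C) {k s : ℕ} {D : ℤ} (hD : D < N k) {z : K.A s} (hz : z ∈ K.W s D)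
    (h : C.Bd0 D s (L.φ s z)) : K.Bd (I k) D s z := by
  cases s with
  | zero => exact L.φ_ker k 0 D z hz hD h
  | succ s =>
    obtain ⟨y, hy, e⟩ := h
    obtain ⟨x, hx, rfl⟩ := L.φ_surj s D y hy
    refine ⟨x, hx, L.φ_ker k (s + 1) D _ (sub_mem hz (K.d_wt s D x hx)) hD ?_⟩
    rw [map_sub, L.φ_d, e, sub_self]

theorem van_of (L : VLim K I N C) {k s : ℕ} {D : ℤ} (hD : D < N k) (h : C.Van0 s D) :
    K.Van (I k) s D := by
  intro z hz hdz
  refine L.bd_of hD hz (h _ (L.φ_wt s D z hz) ?_)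
  rw [← L.φ_d]
  exact L.φ_I k _ _ hdz

/-- **Vanishing.** If `H^s(C)` vanishes in all degrees `D - w`, `w` in the semigroup generated by
the `N j`, `j ≥ k`, then `H^s(M_k)` vanishes in degree `D`. -/
theorem van (L : VLim K I N C) (T : VTower K I V N) (hN : ∀ j, 1 ≤ N j)
    (hinf : ∀ D : ℤ, ∃ k, ∀ j, k ≤ j → D < N j) (s k : ℕ) (D : ℤ)
    (hC : ∀ w ∈ VTower.SG N k, C.Van0 s (D - w)) : K.Van (I k) s D := by
  suffices H : ∀ (n : ℕ) (k : ℕ) (D : ℤ), D < n → (∀ w ∈ VTower.SG N k, C.Van0 s (D - w)) →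
      K.Van (I k) s D from H (D.toNat + 1) k D (by omega) hC
  clear hC k D
  intro n
  induction n with
  | zero =>
    intro k D hD hC
    have hD' : D < 0 := by simpa using hD
    refine L.van_of (k := k) (by have := hN k; omega) ?_
    simpa using hC 0 (zero_mem _)
  | succ n ih =>
    intro k D hD hC
    obtain ⟨K0, hK0⟩ := hinf D
    have main : ∀ (m k : ℕ), K0 ≤ k + m → (∀ w ∈ VTower.SG N k, C.Van0 s (D - w)) →
        K.Van (I k) s D := by
      intro m
      induction m with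
      | zero =>
        intro k hk hC
        refine L.van_of (hK0 k (by omega)) ?_
        simpa using hC 0 (zero_mem _)
      | succ m ihm =>
        intro k hk hC
        refine T.van_step k s D ?_ ?_
        · exact ihm (k + 1) (by omega) fun w hw => hC w (VTower.SG_mono (Nat.le_succ k) hw)
        · refine ih k (D - N k) ?_ (fun w hw => ?_)
          · have := hN k
            push_cast at hD
            omega
          · have := hC (N k + w) (add_mem (VTower.N_mem_SG le_rfl) hw)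
            rwa [show D - N k - w = D - (N k + w) by ring]
    exact main K0 k (by omega) hC

/-- **Injectivity.** A cocycle of `M_k` of degree `D` whose image in `C` is a coboundary is a
coboundary in `M_k`, if `H^s(C)_(D-w) = 0` for all nonzero `w` of the semigroup. -/
theorem inj (L : VLim K I N C) (T : VTower K I V N) (hN : ∀ j, 1 ≤ N j)
    (hinf : ∀ D : ℤ, ∃ k, ∀ j, k ≤ j → D < N j) (s k : ℕ) (D : ℤ)
    (hC : ∀ w ∈ VTower.SG N k, w ≠ 0 → C.Van0 s (D - w)) {z : K.A s} (hz : z ∈ K.W s D)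
    (hdz : K.d s z ∈ I k (s + 1)) (hb : C.Bd0 D s (L.φ s z)) : K.Bd (I k) D s z := by
  obtain ⟨K0, hK0⟩ := hinf D
  have main : ∀ (m k : ℕ), K0 ≤ k + m → (∀ w ∈ VTower.SG N k, w ≠ 0 → C.Van0 s (D - w)) →
      K.d s z ∈ I k (s + 1) → K.Bd (I k) D s z := by
    intro m
    induction m with
    | zero =>
      intro k hk _ _
      exact L.bd_of (hK0 k (by omega)) hz hb
    | succ m ihm =>
      intro k hk hC hdz
      refine T.inj_step k s D ?_ z hz hdz ?_
      · refine L.van T hN hinf s k _ fun w hw => ?_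
        have := hC (N k + w) (add_mem (VTower.N_mem_SG le_rfl) hw) ?_
        · rwa [show D - N k - w = D - (N k + w) by ring]
        · have h1 := hN k
          have h2 := VTower.SG_nonneg (fun j _ => (by have := hN j; omega : 0 ≤ N j)) hw
          omega
      · exact ihm (k + 1) (by omega) (fun w hw => hC w (VTower.SG_mono (Nat.le_succ k) hw))
          (T.mono k _ hdz)
  exact main K0 k (by omega) hC hdz

/-- **Lifting.** Every cocycle of `C` of degree `D` lifts to a cocycle of `M_k`, if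
`H^(s+1)(C)_(D-w) = 0` for all nonzero `w` of the semigroup. -/
theorem lift (L : VLim K I N C) (T : VTower K I V N) (hN : ∀ j, 1 ≤ N j)
    (hinf : ∀ D : ℤ, ∃ k, ∀ j, k ≤ j → D < N j) (s k : ℕ) (D : ℤ)
    (hC : ∀ w ∈ VTower.SG N k, w ≠ 0 → C.Van0 (s + 1) (D - w)) {y : C.A s} (hy : y ∈ C.W s D)
    (hdy : C.d s y = 0) : ∃ z ∈ K.W s D, K.d s z ∈ I k (s + 1) ∧ L.φ s z = y := by
  obtain ⟨K0, hK0⟩ := hinf D
  have main : ∀ (m k : ℕ), K0 ≤ k + m → (∀ w ∈ VTower.SG N k, w ≠ 0 → C.Van0 (s + 1) (D - w)) →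
      ∃ z ∈ K.W s D, K.d s z ∈ I k (s + 1) ∧ L.φ s z = y := by
    intro m
    induction m with
    | zero =>
      intro k hk _
      obtain ⟨z, hz, rfl⟩ := L.φ_surj s D y hy
      refine ⟨z, hz, L.φ_ker k (s + 1) D _ (K.d_wt s D z hz) (hK0 k (by omega)) ?_, rfl⟩
      rw [L.φ_d, hdy]
    | succ m ihm =>
      intro k hk hC
      obtain ⟨z, hz, hdz, e⟩ := ihm (k + 1) (by omega)
        (fun w hw => hC w (VTower.SG_mono (Nat.le_succ k) hw))
      obtain ⟨z', hz', hdz', h⟩ := T.lift_step k s D (by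
        refine L.van T hN hinf (s + 1) k _ fun w hw => ?_
        have := hC (N k + w) (add_mem (VTower.N_mem_SG le_rfl) hw) ?_
        · rwa [show D - N k - w = D - (N k + w) by ring]
        · have h1 := hN k
          have h2 := VTower.SG_nonneg (fun j _ => (by have := hN j; omega : 0 ≤ N j)) hw
          omega) z hz hdz
      refine ⟨z', hz', hdz', ?_⟩
      have := L.φ_I (k + 1) s _ h
      rw [map_sub, sub_eq_zero] at this
      rw [← this, e]
  exact main K0 k (by omega) hC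

/-! ### the range `D < N k + s` -/

theorem van_low (hC0 : ∀ (s : ℕ) (D : ℤ), D < s → C.Van0 s D) {k : ℕ} {N : ℕ → ℤ}
    (hN0 : 0 ≤ N k) (hmono : ∀ j, k ≤ j → N k ≤ N j) {s : ℕ} {D : ℤ} (hD : D < N k + s) {w : ℤ}
    (hw : w ∈ VTower.SG N k) (hw0 : w ≠ 0) : C.Van0 s (D - w) := by
  rcases VTower.SG_ge hN0 hmono hw with h | h
  · exact absurd h hw0
  · exact hC0 s _ (by omega)

/-- In degrees `D < N k + s`: `H^s(C)_D = 0` implies `H^s(M_k)_D = 0`. -/
theorem van' (L : VLim K I N C) (T : VTower K I V N) (hN : ∀ j, 1 ≤ N j)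
    (hinf : ∀ D : ℤ, ∃ k, ∀ j, k ≤ j → D < N j)
    (hC0 : ∀ (s : ℕ) (D : ℤ), D < s → C.Van0 s D) {s k : ℕ} {D : ℤ}
    (hmono : ∀ j, k ≤ j → N k ≤ N j) (hD : D < N k + s) (hC : C.Van0 s D) :
    K.Van (I k) s D := by
  refine L.van T hN hinf s k D fun w hw => ?_
  by_cases h0 : w = 0
  · rw [h0, sub_zero]
    exact hC
  · exact van_low hC0 (by have := hN k; omega) hmono hD hw h0

/-- In degrees `D < N k + s`: a cocycle of `M_k` which becomes a coboundary in `C` is a
coboundary. -/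
theorem inj' (L : VLim K I N C) (T : VTower K I V N) (hN : ∀ j, 1 ≤ N j)
    (hinf : ∀ D : ℤ, ∃ k, ∀ j, k ≤ j → D < N j)
    (hC0 : ∀ (s : ℕ) (D : ℤ), D < s → C.Van0 s D) {s k : ℕ} {D : ℤ}
    (hmono : ∀ j, k ≤ j → N k ≤ N j) (hD : D < N k + s) {z : K.A s} (hz : z ∈ K.W s D)
    (hdz : K.d s z ∈ I k (s + 1)) (hb : C.Bd0 D s (L.φ s z)) : K.Bd (I k) D s z :=
  L.inj T hN hinf s k D
    (fun _ hw h0 => van_low hC0 (by have := hN k; omega) hmono hD hw h0) hz hdz hb

/-- In degrees `D ≤ N k + s`: cocycles of `C` lift to cocycles of `M_k`. -/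
theorem lift' (L : VLim K I N C) (T : VTower K I V N) (hN : ∀ j, 1 ≤ N j)
    (hinf : ∀ D : ℤ, ∃ k, ∀ j, k ≤ j → D < N j)
    (hC0 : ∀ (s : ℕ) (D : ℤ), D < s → C.Van0 s D) {s k : ℕ} {D : ℤ}
    (hmono : ∀ j, k ≤ j → N k ≤ N j) (hD : D ≤ N k + s) {y : C.A s} (hy : y ∈ C.W s D)
    (hdy : C.d s y = 0) : ∃ z ∈ K.W s D, K.d s z ∈ I k (s + 1) ∧ L.φ s z = y :=
  L.lift T hN hinf s k D
    (fun _ hw h0 => van_low hC0 (by have := hN k; omega) hmono (by push_cast; omega) hw h0) hy hdy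

end VLim

end Vale.Agent.P257.V4.E
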