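import Vale.Agent.P257.V4.E.Comp

/-!
# P257 / V4, part E, block E-3: transport of the comparison along a surjection of complexes

`K' → K` (think `Cob Laz s → NB p s`) is onto in every degree. Everything about `K` modulo
subgroups `J s` holds for `K'` modulo the preimages of the `J s`.
-/

namespace Vale.Agent.P257.V4.E

/-- A degreewise surjective map of graded complexes. -/
structure GrSurj (K' K : GrCx) where
  ψ : ∀ s, K'.A s →+ K.A s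
  ψ_d : ∀ s x, ψ (s + 1) (K'.d s x) = K.d s (ψ s x)
  ψ_wt : ∀ s D x, x ∈ K'.W s D → ψ s x ∈ K.W s D
  ψ_surj : ∀ s D y, y ∈ K.W s D → ∃ x ∈ K'.W s D, ψ s x = y

namespace GrSurj

variable {K' K : GrCx} (S : GrSurj K' K)

/-- preimages of subgroups -/
def pre (J : ∀ s, AddSubgroup (K.A s)) (s : ℕ) : AddSubgroup (K'.A s) := (J s).comap (S.ψ s)

variable {J : ∀ s, AddSubgroup (K.A s)} {s : ℕ} {D : ℤ}

theorem mem_pre {x : K'.A s} : x ∈ S.pre J s ↔ S.ψ s x ∈ J s := Iff.rfl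

theorem bd {z : K'.A s} (h : K.Bd J D s (S.ψ s z)) : K'.Bd (S.pre J) D s z := by
  cases s with
  | zero => exact h
  | succ s =>
    obtain ⟨y, hy, e⟩ := h
    obtain ⟨x, hx, rfl⟩ := S.ψ_surj s D y hy
    refine ⟨x, hx, ?_⟩
    rw [S.mem_pre, map_sub, S.ψ_d]
    exact e

theorem bd_image {z : K'.A s} (h : K'.Bd (S.pre J) D s z) : K.Bd J D s (S.ψ s z) := by
  cases s with
  | zero => exact h
  | succ s =>
    obtain ⟨y, hy, e⟩ := h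
    refine ⟨S.ψ s y, S.ψ_wt s D y hy, ?_⟩
    rw [S.mem_pre, map_sub, S.ψ_d] at e
    exact e

theorem van (h : K.Van J s D) : K'.Van (S.pre J) s D := by
  intro z hz hdz
  refine S.bd (h _ (S.ψ_wt s D z hz) ?_)
  rw [← S.ψ_d]
  exact hdz

theorem lift {y : K.A s} (hy : y ∈ K.W s D) (hdy : K.d s y ∈ J (s + 1)) :
    ∃ z ∈ K'.W s D, K'.d s z ∈ S.pre J (s + 1) ∧ S.ψ s z = y := by
  obtain ⟨z, hz, rfl⟩ := S.ψ_surj s D y hy
  refine ⟨z, hz, ?_, rfl⟩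
  rw [S.mem_pre, S.ψ_d]
  exact hdy

end GrSurj

namespace VLim

variable {K' K C : GrCx} {I : ℕ → ∀ s, AddSubgroup (K.A s)} {V : ℕ → ∀ s, K.A s →+ K.A s}
  {N : ℕ → ℤ}

/-- **E-3, vanishing.** `D < N k + s` and `H^s(C)_D = 0` ==> every cocycle of `K'` modulo the
preimage of `I k` of degree `D` is a coboundary. -/
theorem van'' (S : GrSurj K' K) (L : VLim K I N C) (T : VTower K I V N) (hN : ∀ j, 1 ≤ N j)
    (hinf : ∀ D : ℤ, ∃ k, ∀ j, k ≤ j → D < N j)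
    (hC0 : ∀ (s : ℕ) (D : ℤ), D < s → C.Van0 s D) {s k : ℕ} {D : ℤ}
    (hmono : ∀ j, k ≤ j → N k ≤ N j) (hD : D < N k + s) (hC : C.Van0 s D) :
    K'.Van (S.pre (I k)) s D :=
  S.van (L.van' T hN hinf hC0 hmono hD hC)

/-- **E-3, injectivity.** -/
theorem inj'' (S : GrSurj K' K) (L : VLim K I N C) (T : VTower K I V N) (hN : ∀ j, 1 ≤ N j)
    (hinf : ∀ D : ℤ, ∃ k, ∀ j, k ≤ j → D < N j)
    (hC0 : ∀ (s : ℕ) (D : ℤ), D < s → C.Van0 s D) {s k : ℕ} {D : ℤ}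
    (hmono : ∀ j, k ≤ j → N k ≤ N j) (hD : D < N k + s) {z : K'.A s} (hz : z ∈ K'.W s D)
    (hdz : K'.d s z ∈ S.pre (I k) (s + 1)) (hb : C.Bd0 D s (L.φ s (S.ψ s z))) :
    K'.Bd (S.pre (I k)) D s z := by
  refine S.bd (L.inj' T hN hinf hC0 hmono hD (S.ψ_wt s D z hz) ?_ hb)
  rw [← S.ψ_d]
  exact hdz

/-- **E-3, lifting of cocycles.** -/
theorem lift'' (S : GrSurj K' K) (L : VLim K I N C) (T : VTower K I V N) (hN : ∀ j, 1 ≤ N j)
    (hinf : ∀ D : ℤ, ∃ k, ∀ j, k ≤ j → D < N j)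
    (hC0 : ∀ (s : ℕ) (D : ℤ), D < s → C.Van0 s D) {s k : ℕ} {D : ℤ}
    (hmono : ∀ j, k ≤ j → N k ≤ N j) (hD : D ≤ N k + s) {y : C.A s} (hy : y ∈ C.W s D)
    (hdy : C.d s y = 0) :
    ∃ z ∈ K'.W s D, K'.d s z ∈ S.pre (I k) (s + 1) ∧ L.φ s (S.ψ s z) = y := by
  obtain ⟨x, hx, hdx, rfl⟩ := L.lift' T hN hinf hC0 hmono hD hy hdy
  obtain ⟨z, hz, hdz, rfl⟩ := S.lift hx hdx
  exact ⟨z, hz, hdz, rfl⟩

end VLim

end Vale.Agent.P257.V4.E
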