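import Vale.Agent.P257.V4.E.Defs
import Vale.Agent.P257.V4.E.CompPull
import Vale.Agent.P257.V4.E.CompRing

/-!
# P257 / V4, part E, block E-3: the comparison for cosimplicial rings `K : CosR`

* `K.dd s : K.A s →+ K.A (s+1)`, `coe_d`, `dd_dd`; `K.grCx c : GrCx` with `W s D = K.wt s (c * D)`.
* `K.Bdw I w s z`, `K.Vanw I s w` : coboundaries and vanishing modulo subgroups `I s w ≤ K.wt s w`.
* `RSurj K c R` : degreewise surjective map of cosimplicial rings `K → R` (weights `c * D ↦ D`).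
* `Match S I' I k` : `z ∈ I' s (c * D) ↔ ψ z ∈ I k s`.
* `Match.van`, `Match.inj`, `Match.lift` : the comparison theorems.
* `Match.step` : if `I'` is matched with `I k` and `I''` is obtained from `I'` by adding the
  multiples of the last-vertex element `v`, then `I''` is matched with `I (k+1)`.
-/

namespace Vale.Agent.P257.V4.E

namespace CosR

variable (K : CosR)

/-- the differential on all elements -/
def dd (s : ℕ) : K.A s →+ K.A (s + 1) where
  toFun x := ∑ i : Fin (s + 2), ((-1 : ℤ) ^ (i : ℕ)) • K.map (Fin.succAbove i) x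
  map_zero' := by simp
  map_add' x y := by simp [Finset.sum_add_distrib]

theorem dd_apply (s : ℕ) (x : K.A s) :
    K.dd s x = ∑ i : Fin (s + 2), ((-1 : ℤ) ^ (i : ℕ)) • K.map (Fin.succAbove i) x := rfl

theorem coe_d (s : ℕ) (w : ℤ) (x : K.wt s w) : (K.d s w x : K.A (s + 1)) = K.dd s x.1 := by
  rw [K.d_apply, dd_apply, AddSubgroup.val_finsetSum]
  exact Finset.sum_congr rfl fun i _ => by rw [AddSubgroup.coe_zsmul, coe_mapw]

theorem parity_aux {n : ℕ} (i : Fin (n + 3)) (j : Fin (n + 2)) :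
    ((i.succAbove j : Fin (n + 3)) : ℕ) + ((j.predAbove i : Fin (n + 2)) : ℕ) + 1 = i + j ∨
    ((i.succAbove j : Fin (n + 3)) : ℕ) + ((j.predAbove i : Fin (n + 2)) : ℕ) = i + j + 1 := by
  simp only [Fin.succAbove, Fin.predAbove, Fin.lt_def, Fin.val_castSucc, apply_dite Fin.val,
    Fin.val_pred, Fin.coe_castPred, dite_eq_ite, apply_ite Fin.val, Fin.val_succ]
  split_ifs <;> omega

theorem dd_dd (s : ℕ) (x : K.A s) : K.dd (s + 1) (K.dd s x) = 0 := by
  rw [dd_apply]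
  simp only [dd_apply, map_sum, map_zsmul, K.map_map, Finset.smul_sum, smul_smul]
  rw [← Finset.sum_product' (f := fun (i : Fin (s + 3)) (j : Fin (s + 2)) =>
    ((-1 : ℤ) ^ (i : ℕ) * (-1) ^ (j : ℕ)) • K.map (i.succAbove ∘ j.succAbove) x)]
  refine Finset.sum_involution (fun ij _ => (ij.1.succAbove ij.2, ij.2.predAbove ij.1))
    ?_ ?_ (fun _ _ => Finset.mem_univ _) ?_
  · rintro ⟨i, j⟩ -
    have e : (i.succAbove j).succAbove ∘ (j.predAbove i).succAbove =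
        i.succAbove ∘ j.succAbove := by
      funext k
      exact Fin.succAbove_succAbove_succAbove_predAbove i j k
    dsimp only
    rw [e, ← add_smul, ← pow_add, ← pow_add]
    have : ((-1 : ℤ) ^ ((i : ℕ) + j) + (-1) ^ (((i.succAbove j : Fin (s + 3)) : ℕ) +
        ((j.predAbove i : Fin (s + 2)) : ℕ))) = 0 := by
      rcases parity_aux i j with h | h
      · rw [← h, pow_succ]
        ring
      · rw [h, pow_succ]
        ring
    rw [this, zero_smul]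
  · rintro ⟨i, j⟩ - - h
    have := congrArg Prod.fst h
    exact Fin.succAbove_ne i j this
  · rintro ⟨i, j⟩ -
    refine Prod.ext ?_ ?_
    · exact Fin.succAbove_succAbove_predAbove i j
    · dsimp only
      apply Fin.ext
      simp only [Fin.succAbove, Fin.predAbove, Fin.lt_def, Fin.val_castSucc, apply_dite Fin.val,
        Fin.val_pred, Fin.coe_castPred, dite_eq_ite, apply_ite Fin.val, Fin.val_succ]
      split_ifs <;> omega

theorem d_d (s : ℕ) (w : ℤ) (x : K.wt s w) : K.d (s + 1) w (K.d s w x) = 0 := by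
  apply Subtype.ext
  rw [coe_d, coe_d, dd_dd]
  rfl

theorem dd_mem {s : ℕ} {w : ℤ} {x : K.A s} (hx : x ∈ K.wt s w) : K.dd s x ∈ K.wt (s + 1) w := by
  rw [dd_apply]
  exact sum_mem fun i _ => zsmul_mem (K.map_mem _ hx) _

/-- The graded complex of `K`, with `W s D = K.wt s (c * D)`. -/
def grCx (c : ℤ) : GrCx where
  A := K.A
  d := K.dd
  W s D := K.wt s (c * D)
  d_d := K.dd_dd
  d_wt _ _ _ hx := K.dd_mem hx

/-- Coboundary modulo the subgroups `I`. -/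
def Bdw (I : ∀ s w, AddSubgroup (K.wt s w)) (w : ℤ) : ∀ s, K.wt s w → Prop
  | 0, z => z ∈ I 0 w
  | s + 1, z => ∃ y : K.wt s w, z - K.d s w y ∈ I (s + 1) w

/-- `H^s (K / I)` vanishes in weight `w`. -/
def Vanw (I : ∀ s w, AddSubgroup (K.wt s w)) (s : ℕ) (w : ℤ) : Prop :=
  ∀ z : K.wt s w, K.d s w z ∈ I (s + 1) w → K.Bdw I w s z

end CosR

/-- A degreewise surjective map from a cosimplicial ring to graded rings with cofaces. -/
structure RSurj (K : CosR) (c : ℤ) (R : RCx) where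
  ψ : ∀ s, K.A s →+* R.A s
  ψ_δ : ∀ s (i : Fin (s + 2)) x, ψ (s + 1) (K.map (Fin.succAbove i) x) = R.δ s i (ψ s x)
  ψ_wt : ∀ s D x, x ∈ K.wt s (c * D) → ψ s x ∈ R.W s D
  ψ_surj : ∀ s D y, y ∈ R.W s D → ∃ x ∈ K.wt s (c * D), ψ s x = y

namespace RSurj

variable {K : CosR} {c : ℤ} {R : RCx} (S : RSurj K c R)

theorem ψ_d (s : ℕ) (x : K.A s) : S.ψ (s + 1) (K.dd s x) = R.d s (S.ψ s x) := by
  rw [CosR.dd_apply, RCx.d_apply, map_sum]
  exact Finset.sum_congr rfl fun i _ => by rw [map_zsmul, S.ψ_δ]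

/-- the underlying surjection of graded complexes -/
def toGr : GrSurj (K.grCx c) R.cx where
  ψ s := (S.ψ s).toAddMonoidHom
  ψ_d s x := S.ψ_d s x
  ψ_wt s D x hx := S.ψ_wt s D x hx
  ψ_surj s D y hy := S.ψ_surj s D y hy

/-- The preimage of an ideal. -/
def pre (J : ∀ s, Ideal (R.A s)) (s : ℕ) (w : ℤ) : AddSubgroup (K.wt s w) :=
  ((J s).toAddSubgroup.comap (S.ψ s).toAddMonoidHom).comap (K.wt s w).subtype

theorem mem_pre {J : ∀ s, Ideal (R.A s)} {s : ℕ} {w : ℤ} {z : K.wt s w} :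
    z ∈ S.pre J s w ↔ S.ψ s z.1 ∈ J s := Iff.rfl

variable (I' : ∀ s w, AddSubgroup (K.wt s w)) (J : ∀ s, Ideal (R.A s))

/-- The subgroups `I'` are the preimages of the ideals `J`. -/
def Match : Prop := ∀ s D (z : K.wt s (c * D)), z ∈ I' s (c * D) ↔ S.ψ s z.1 ∈ J s

theorem match_pre (J : ∀ s, Ideal (R.A s)) : S.Match (S.pre J) J := fun _ _ _ => Iff.rfl

variable {S I' J}

/-- `J` as subgroups -/
def jsub (J : ∀ s, Ideal (R.A s)) (s : ℕ) : AddSubgroup (R.cx.A s) := (J s).toAddSubgroup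

theorem Match.bd_iff (h : S.Match I' J) {s : ℕ} {D : ℤ} (z : K.wt s (c * D)) :
    K.Bdw I' (c * D) s z ↔ (K.grCx c).Bd (S.toGr.pre (jsub J)) D s z.1 := by
  cases s with
  | zero => exact h 0 D z
  | succ s =>
    constructor
    · rintro ⟨y, hy⟩
      refine ⟨y.1, y.2, ?_⟩
      have := (h (s + 1) D _).1 hy
      rwa [AddSubgroup.coe_sub, CosR.coe_d] at this
    · rintro ⟨y, hy, e⟩
      refine ⟨⟨y, hy⟩, (h (s + 1) D _).2 ?_⟩
      rw [AddSubgroup.coe_sub, CosR.coe_d]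
      exact e

theorem Match.cocycle_iff (h : S.Match I' J) {s : ℕ} {D : ℤ} (z : K.wt s (c * D)) :
    K.d s (c * D) z ∈ I' (s + 1) (c * D) ↔
      (K.grCx c).d s z.1 ∈ S.toGr.pre (jsub J) (s + 1) := by
  rw [h (s + 1) D, CosR.coe_d]
  exact Iff.rfl

theorem Match.van (h : S.Match I' J) {s : ℕ} {D : ℤ} (hV : R.cx.Van (jsub J) s D) :
    K.Vanw I' s (c * D) := fun z hz =>
  (h.bd_iff z).2 (S.toGr.van hV z.1 z.2 ((h.cocycle_iff z).1 hz))

/-- A cocycle of `K` modulo `I'` is a coboundary if its image is. -/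
theorem Match.bd (h : S.Match I' J) {s : ℕ} {D : ℤ} {z : K.wt s (c * D)}
    (hb : R.cx.Bd (jsub J) D s (S.ψ s z.1)) : K.Bdw I' (c * D) s z :=
  (h.bd_iff z).2 (S.toGr.bd hb)

/-- The image of a coboundary is a coboundary. -/
theorem Match.bd_image (h : S.Match I' J) {s : ℕ} {D : ℤ} {z : K.wt s (c * D)}
    (hb : K.Bdw I' (c * D) s z) : R.cx.Bd (jsub J) D s (S.ψ s z.1) :=
  S.toGr.bd_image ((h.bd_iff z).1 hb)

/-- Cocycles lift. -/
theorem Match.lift (h : S.Match I' J) {s : ℕ} {D : ℤ} {y : R.A s} (hy : y ∈ R.W s D)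
    (hdy : R.d s y ∈ J (s + 1)) :
    ∃ z : K.wt s (c * D), K.d s (c * D) z ∈ I' (s + 1) (c * D) ∧ S.ψ s z.1 = y := by
  obtain ⟨z, hz, hdz, e⟩ := S.toGr.lift (J := jsub J) (s := s) (D := D) (y := y) hy hdy
  exact ⟨⟨z, hz⟩, (h.cocycle_iff ⟨z, hz⟩).2 hdz, e⟩

end RSurj

/-! ### the comparison theorems -/

namespace RTower

variable {K : CosR} {c : ℤ} {R : RCx} {S : RSurj K c R} {I' : ∀ s w, AddSubgroup (K.wt s w)}
  {I : ℕ → ∀ s, Ideal (R.A s)} {v : ℕ → ∀ s, R.A s} {N : ℕ → ℤ} {C : GrCx} {k : ℕ}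

/-- **E-3, vanishing**, for `K : CosR` modulo subgroups matched with `I k`. -/
theorem vanw (T : RTower R I v N) (L : VLim R.cx (sub I) N C) (h : S.Match I' (I k))
    (hN : ∀ j, 1 ≤ N j) (hinf : ∀ D : ℤ, ∃ k, ∀ j, k ≤ j → D < N j)
    (hC0 : ∀ (s : ℕ) (D : ℤ), D < s → C.Van0 s D) {s : ℕ} {D : ℤ}
    (hmono : ∀ j, k ≤ j → N k ≤ N j) (hD : D < N k + s) (hC : C.Van0 s D) :
    K.Vanw I' s (c * D) :=
  h.van (L.van' T.vtower hN hinf hC0 hmono hD hC)

/-- **E-3, injectivity**. -/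
theorem injw (T : RTower R I v N) (L : VLim R.cx (sub I) N C) (h : S.Match I' (I k))
    (hN : ∀ j, 1 ≤ N j) (hinf : ∀ D : ℤ, ∃ k, ∀ j, k ≤ j → D < N j)
    (hC0 : ∀ (s : ℕ) (D : ℤ), D < s → C.Van0 s D) {s : ℕ} {D : ℤ}
    (hmono : ∀ j, k ≤ j → N k ≤ N j) (hD : D < N k + s) {z : K.wt s (c * D)}
    (hdz : K.d s (c * D) z ∈ I' (s + 1) (c * D)) (hb : C.Bd0 D s (L.φ s (S.ψ s z.1))) :
    K.Bdw I' (c * D) s z := by
  refine h.bd (L.inj' T.vtower hN hinf hC0 hmono hD (S.ψ_wt s D z.1 z.2) ?_ hb)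
  have := (h (s + 1) D _).1 hdz
  rw [CosR.coe_d, S.ψ_d] at this
  exact this

/-- **E-3, lifting of cocycles**. -/
theorem liftw (T : RTower R I v N) (L : VLim R.cx (sub I) N C) (h : S.Match I' (I k))
    (hN : ∀ j, 1 ≤ N j) (hinf : ∀ D : ℤ, ∃ k, ∀ j, k ≤ j → D < N j)
    (hC0 : ∀ (s : ℕ) (D : ℤ), D < s → C.Van0 s D) {s : ℕ} {D : ℤ}
    (hmono : ∀ j, k ≤ j → N k ≤ N j) (hD : D ≤ N k + s) {y : C.A s} (hy : y ∈ C.W s D)
    (hdy : C.d s y = 0) :
    ∃ z : K.wt s (c * D), K.d s (c * D) z ∈ I' (s + 1) (c * D) ∧ L.φ s (S.ψ s z.1) = y := by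
  obtain ⟨x, hx, hdx, rfl⟩ := L.lift' T.vtower hN hinf hC0 hmono hD hy hdy
  obtain ⟨z, hz, e⟩ := h.lift (y := x) hx hdx
  exact ⟨z, hz, by rw [e]⟩

/-- **The step.** `I'` is matched with `I k`; `I''` consists of the `z` for which
`z - y * vl ∈ I'` for some `y`, where `ψ vl` is `v k` modulo `I k`. Then `I''` is matched with
`I (k+1)`. -/
theorem match_step (T : RTower R I v N) {I'' : ∀ s w, AddSubgroup (K.wt s w)}
    (h : S.Match I' (I k)) (vl : ∀ s, K.A s)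
    (hvl : ∀ s, S.ψ s (vl s) - v k s ∈ I k s) (hvw : ∀ s, vl s ∈ K.wt s (c * N k))
    (hstep : ∀ s D (z : K.wt s (c * D)), z ∈ I'' s (c * D) ↔
      ∃ (y : K.wt s (c * (D - N k))) (z' : K.wt s (c * D)),
        z'.1 = z.1 - y.1 * vl s ∧ z' ∈ I' s (c * D)) :
    S.Match I'' (I (k + 1)) := by
  intro s D z
  rw [hstep]
  constructor
  · rintro ⟨y, z', e, hz'⟩
    have h1 := T.mono k s ((h s D z').1 hz')
    have h2 : S.ψ s (vl s) ∈ I (k + 1) s := by
      have := add_mem (T.mono k s (hvl s)) (T.v_mem k s)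
      rwa [sub_add_cancel] at this
    have h3 : S.ψ s z.1 = S.ψ s z'.1 + S.ψ s y.1 * S.ψ s (vl s) := by
      rw [e, map_sub, map_mul, sub_add_cancel]
    rw [h3]
    exact add_mem h1 (Ideal.mul_mem_left _ _ h2)
  · intro hz
    obtain ⟨y, hy, hzy⟩ := T.I_succ k s D _ (S.ψ_wt s D z.1 z.2) hz
    obtain ⟨x, hx, rfl⟩ := S.ψ_surj s _ y hy
    have hm : x * vl s ∈ K.wt s (c * D) := by
      have := K.mul_mem hx (hvw s)
      rwa [show c * (D - N k) + c * N k = c * D by ring] at this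
    refine ⟨⟨x, hx⟩, ⟨z.1 - x * vl s, sub_mem z.2 hm⟩, rfl, (h s D _).2 ?_⟩
    rw [map_sub, map_mul]
    have : S.ψ s z.1 - S.ψ s x * S.ψ s (vl s) = (S.ψ s z.1 - v k s * S.ψ s x) -
        S.ψ s x * (S.ψ s (vl s) - v k s) := by ring
    rw [this]
    exact sub_mem hzy (Ideal.mul_mem_left _ _ (hvl s))

end RTower

end Vale.Agent.P257.V4.E
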