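import Vale.Agent.P257.V4.B.NBWt
import Vale.Agent.P257.V4.B.NBIdeal
import Vale.Agent.P257.V4.B.ModP
import Vale.Agent.P257.V4.E.CompCos
import Vale.Agent.P257.V4.E.ChCx

/-!
# P257 / V4, part E, block E-3: the instances

* `cobK : CosR` (defined in B/ModP) : the cosimplicial ring `Cob Laz`;
* `nbR p : RCx` : the rings `NB p s` of functions on normal chains, weights in units of `p - 1`;
* `nbS p : RSurj cobK (p - 1) (nbR p)` : the surjection `toNB`;
* `nbT p : RTower (nbR p) (NB.I p) NB.v (N p (k+1))` : the ideals `(v_1, …, v_k)`;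
-/

namespace Vale.Agent.P257.V4.E

open Vale.Agent.P251.F Vale.Agent.P257.V4.B

theorem mem_cobK_wt {s : ℕ} {w : ℤ} {x : Cob Laz s} : x ∈ cobK.wt s w ↔ Cob.IsWt w x := Iff.rfl

theorem cobK_dd (s : ℕ) (x : Cob Laz s) : cobK.dd s x = Cob.d s x := (Cob.d_apply x).symm

variable (p : ℕ) [Fact p.Prime]

/-- The rings `NB p s`. -/
noncomputable def nbR : RCx where
  A s := NB p s
  δ _ i := NB.map (Fin.succAbove i)
  W := NB.W p
  mul_wt _ _ _ _ _ := NB.mul_mem_W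
  δ_wt _ _ _ _ := NB.map_mem_W _
  d_d s x := by
    have h := NB.d_d x
    rw [NB.d_apply, NB.d_apply] at h
    exact h

theorem nbR_d (s : ℕ) (x : NB p s) : (nbR p).d s x = NB.d p s x := (NB.d_apply x).symm

/-- The surjection `toNB`. -/
noncomputable def nbS : RSurj cobK ((p : ℤ) - 1) (nbR p) where
  ψ s := toNB p s
  ψ_δ _ _ _ := toNB_map _ _
  ψ_wt _ _ _ hx := toNB_mem_W hx
  ψ_surj _ _ _ hy := exists_toNB hy

/-- The weights of the `v_{k+1}`. -/
def nbN (k : ℕ) : ℤ := (A.Ch.N p (k + 1) : ℕ)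

/-- The element `v_{k+1}` at the vertex `0`. -/
noncomputable def nbv (k s : ℕ) : (nbR p).A s := (NB.v k : NB p s)

theorem nbT : RTower (nbR p) (NB.I p) (nbv p) (nbN p) where
  v_wt k _ := NB.v_mem_W k
  δ_I _ _ _ _ hx := NB.map_mem_I _ hx
  δ_v k _ _ := NB.map_v_sub_mem _ k
  reg _ _ _ _ _ h := NB.reg h
  v_mem k _ := NB.v_mem_I (Nat.lt_succ_self k)
  mono k _ := NB.I_mono (Nat.le_succ k)
  I_succ _ _ _ _ hx h := NB.exists_of_mem_I_succ hx h

omit [Fact p.Prime] in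
theorem nbN_pos (j : ℕ) : 1 ≤ nbN p j := by
  have := A.Ch.N_pos (p := p) j
  unfold nbN
  omega

omit [Fact p.Prime] in
theorem nbN_mono {j k : ℕ} (h : k ≤ j) : nbN p k ≤ nbN p j := by
  have h1 : A.Ch.N p (k + 1) ≤ A.Ch.N p (j + 1) := A.Ch.N_mono (by omega)
  unfold nbN
  omega

theorem nbN_inf (D : ℤ) : ∃ k, ∀ j, k ≤ j → D < nbN p j := by
  refine ⟨D.toNat, fun j hj => ?_⟩
  have := A.Ch.N_ge (Fact.out : p.Prime).one_lt.le (j + 1)
  unfold nbN
  omega

end Vale.Agent.P257.V4.E
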