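import Vale.Agent.P257.V4.B.ToCh
import Vale.Agent.P257.V4.E.CompFin
import Vale.Agent.P257.V4.E.KTow

/-!
# P257 / V4, part E, block E-3: final form

`K = Cob Laz` modulo `In p n` (the functions on chains which vanish on all normal chains over
`F_p`-algebras with `v_1 = … = v_{n-1} = 0`), in the range `D < N_n + s`:

* `van_In` : `Ch.Van p s D → cobK.Vanw (In p n) s ((p-1) D)`;
* `inj_In` : a cocycle of weight `(p-1) D` modulo `In p n` whose image in `Ch p s` is a coboundary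
  is a coboundary modulo `In p n`;
* `lift_In` : every cocycle of `Ch p s` of weight `D ≤ N_n + s` lifts to a cocycle modulo `In p n`.
`chw p s z : Ch p s` is the image of `z : cobK.wt s w`.
-/

namespace Vale.Agent.P257.V4.E

open Vale.Agent.P251.F Vale.Agent.P257.V4.B Vale.Agent.P257.V4.A

variable (p : ℕ) [hp : Fact p.Prime]

variable {p} in
theorem mem_ChW_iff {s : ℕ} {D : ℤ} {x : Ch p s} : x ∈ ChW p s D ↔ x ∈ chW p s D := by
  by_cases h : 0 ≤ D
  · obtain ⟨n, rfl⟩ := Int.eq_ofNat_of_zero_le h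
    exact mem_ChW_natCast.trans mem_chW_nat.symm
  · push Not at h
    constructor
    · intro hx
      have h1 : incl p s x = 0 := NB.W_eq_zero h (incl_mem_W hx)
      have h2 : x = 0 := by rw [← toCh_incl x, h1, map_zero]
      rw [h2]
      exact zero_mem _
    · intro hx
      rw [eq_zero_of_mem_chW h hx]
      exact zero_mem _

/-- The map to the cobar complex of `P_*`. -/
noncomputable def nbL : VLim (nbR p).cx (RTower.sub (NB.I p)) (nbN p) (chR p).cx where
  φ s := (toCh p s).toAddMonoidHom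
  φ_d s x := (congrArg (toCh p (s + 1)) (nbR_d p s x)).trans
    ((toCh_d (p := p) (n := s) x).trans (chR_d s _).symm)
  φ_wt _ _ _ hx := mem_ChW_iff.1 (toCh_mem_ChW hx)
  φ_surj s _ y hy := ⟨incl p s y, incl_mem_W (mem_ChW_iff.2 hy), toCh_incl y⟩
  φ_I _ _ _ hx := toCh_eq_zero_of_mem_I hx
  φ_ker _ _ _ _ hx hD h := mem_I_of_toCh_eq_zero hx hD h

/-- The image of a function on chains in the cobar complex of `P_*`. -/
noncomputable def chw {s : ℕ} {w : ℤ} (z : cobK.wt s w) : Ch p s := toCh p s (toNB p s z.1)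

theorem chw_eq {s : ℕ} {w : ℤ} (z : cobK.wt s w) :
    chw p z = (nbL p).φ s ((nbS p).ψ s z.1) := rfl

variable {p}

theorem chw_isWt {s D : ℕ} (z : cobK.wt s (((p : ℤ) - 1) * (D : ℕ))) : Ch.IsWt D (chw p z) :=
  mem_ChW_natCast.1 (toCh_mem_ChW (toNB_mem_W z.2))

theorem chw_add {s : ℕ} {w : ℤ} (x y : cobK.wt s w) : chw p (x + y) = chw p x + chw p y := by
  have h : toNB p s (x + y).1 = toNB p s x.1 + toNB p s y.1 := map_add (toNB p s) x.1 y.1
  rw [chw, h, map_add]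
  rfl

theorem chw_sub {s : ℕ} {w : ℤ} (x y : cobK.wt s w) : chw p (x - y) = chw p x - chw p y := by
  have h : toNB p s (x - y).1 = toNB p s x.1 - toNB p s y.1 := map_sub (toNB p s) x.1 y.1
  rw [chw, h, map_sub]
  rfl

theorem chw_mapw {m n : ℕ} {w : ℤ} (α : Fin (m + 1) → Fin (n + 1)) (x : cobK.wt m w) :
    chw p (cobK.mapw α w x) = Ch.map α (chw p x) := by
  have h : toNB p n (cobK.mapw α w x).1 = NB.map α (toNB p m x.1) := toNB_map α _
  rw [chw, h, toCh_map]
  rfl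

theorem chw_d {s : ℕ} {w : ℤ} (x : cobK.wt s w) : chw p (cobK.d s w x) = Ch.d s (chw p x) := by
  have h0 : (cobK.d s w x).1 = Cob.d s x.1 := (cobK.coe_d s w x).trans (cobK_dd s x.1)
  have h : toNB p (s + 1) (cobK.d s w x).1 = NB.d p s (toNB p s x.1) := by
    rw [h0]
    exact toNB_d x.1
  rw [chw, h, toCh_d]
  rfl

theorem chw_mulw {s : ℕ} {a b c : ℤ} (h : a + b = c) (x : cobK.wt s a) (y : cobK.wt s b) :
    chw p (cobK.mulw h x y) = chw p x * chw p y := by
  have h1 : toNB p s (cobK.mulw h x y).1 = toNB p s x.1 * toNB p s y.1 :=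
    map_mul (toNB p s) x.1 y.1
  rw [chw, h1, map_mul]
  rfl

theorem chw_cupw {a b : ℕ} {w v w' : ℤ} (h : w + v = w') (x : cobK.wt a w) (y : cobK.wt b v) :
    chw p (cobK.cupw h x y) = Ch.cup (n := a + b) rfl (chw p x) (chw p y) := by
  rw [CosR.cupw, chw_mulw, chw_mapw, chw_mapw, Ch.cup]
  have e : (CosR.back a b : Fin (b + 1) → Fin (a + b + 1)) = Ch.back (n := a + b) (by omega) := by
    funext i
    apply Fin.ext
    change a + (i : ℕ) = a + b - b + i
    omega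
  rw [e]
  rfl

/-- elements of `In p n` have image zero -/
theorem chw_eq_zero_of_mem {n s : ℕ} {w : ℤ} {z : cobK.wt s w} (hz : z ∈ In p n s w) :
    chw p z = 0 := toCh_eq_zero_of_mem_I hz

omit hp in
theorem nbN_eq {n : ℕ} (hn : 1 ≤ n) : nbN p (n - 1) = (Ch.N p n : ℕ) := by
  obtain ⟨n, rfl⟩ := Nat.exists_eq_add_of_le' hn
  rfl

/-- **E-3, vanishing.** -/
theorem van_In (hlow : OutLow p) {n : ℕ} (hn : 1 ≤ n) {s D : ℕ} (hD : D < Ch.N p n + s)
    (hV : Ch.Van p s D) : cobK.Vanw (In p n) s (((p : ℤ) - 1) * (D : ℕ)) := by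
  refine (nbT p).vanw (nbL p) ((nbS p).match_pre _) (nbN_pos p) (nbN_inf p) (van0_low hlow)
    (fun j hj => nbN_mono p hj) ?_ ((van0_iff s D).2 hV)
  rw [nbN_eq hn]
  exact_mod_cast hD

/-- **E-3, injectivity.** -/
theorem inj_In (hlow : OutLow p) {n : ℕ} (hn : 1 ≤ n) {s D : ℕ} (hD : D < Ch.N p n + s)
    {z : cobK.wt s (((p : ℤ) - 1) * (D : ℕ))}
    (hz : cobK.d s _ z ∈ In p n (s + 1) (((p : ℤ) - 1) * (D : ℕ)))
    (hb : Ch.IsCobdy (chw p z)) : cobK.Bdw (In p n) (((p : ℤ) - 1) * (D : ℕ)) s z := by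
  refine (nbT p).injw (nbL p) ((nbS p).match_pre _) (nbN_pos p) (nbN_inf p) (van0_low hlow)
    (fun j hj => nbN_mono p hj) ?_ hz ?_
  · rw [nbN_eq hn]
    exact_mod_cast hD
  · cases s with
    | zero => exact hb
    | succ s =>
      obtain ⟨y, hy, e⟩ := (Ch.isCobdy_succ_iff (chw_isWt z)).1 hb
      exact ⟨y, mem_chW_nat.2 hy, e.symm.trans (chR_d s y).symm⟩

/-- **E-3, lifting of cocycles.** -/
theorem lift_In (hlow : OutLow p) {n : ℕ} (hn : 1 ≤ n) {s D : ℕ} (hD : D ≤ Ch.N p n + s)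
    {y : Ch p s} (hy : Ch.IsWt D y) (hdy : Ch.d s y = 0) :
    ∃ z : cobK.wt s (((p : ℤ) - 1) * (D : ℕ)),
      cobK.d s _ z ∈ In p n (s + 1) (((p : ℤ) - 1) * (D : ℕ)) ∧ chw p z = y := by
  refine (nbT p).liftw (nbL p) ((nbS p).match_pre _) (nbN_pos p) (nbN_inf p) (van0_low hlow)
    (fun j hj => nbN_mono p hj) ?_ (mem_chW_nat.2 hy) ((chR_d s y).trans hdy)
  rw [nbN_eq hn]
  exact_mod_cast hD

/-- Coboundaries modulo `In p n` have image a coboundary. -/
theorem isCobdy_chw {n s : ℕ} {w : ℤ} {z : cobK.wt s w} (h : cobK.Bdw (In p n) w s z) :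
    Ch.IsCobdy (chw p z) := by
  cases s with
  | zero => exact chw_eq_zero_of_mem h
  | succ s =>
    obtain ⟨y, hy⟩ := h
    have h1 := chw_eq_zero_of_mem hy
    rw [chw_sub, sub_eq_zero, chw_d] at h1
    exact ⟨chw p y, h1.symm⟩

/-- The image of a cocycle is a cocycle. -/
theorem d_chw_eq_zero {n s : ℕ} {w : ℤ} {z : cobK.wt s w} (h : cobK.d s w z ∈ In p n (s + 1) w) :
    Ch.d s (chw p z) = 0 := by
  rw [← chw_d]
  exact chw_eq_zero_of_mem h

end Vale.Agent.P257.V4.E
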