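import Vale.Agent.P257.V4.E.TenR
import Vale.Agent.P257.V4.E.TowC
import Vale.Agent.P257.V4.O.Lift

/-!
# P257, part E: the maps of the tower

* `BB_bd`, `BB_k` : compatibility of `B s (B b Y) ≅ B (s+b) Y` with the maps `bd` and `k`;
* `shN r Y = Y⟦1⟧ ⋯ ⟦1⟧`, `bdN U r b Y : B (b+r) Y ⟶ shN r (B b Y)`;
* `proj_eq_zero_iff` : the projection `D^{b+r} → D^b` in terms of `bdN`.
-/

open CategoryTheory MonoidalCategory Limits Pretriangulated MonObj

set_option linter.unusedSectionVars false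

universe v u

namespace Vale.Agent.P257.V4.E

open Vale.Agent.P251.T Vale.Agent.P251.M Vale.Agent.P251.S Vale.Agent.P257.V4.O

variable {T : Type u} [Category.{v} T] [Preadditive T] [HasZeroObject T] [HasShift T ℤ]
  [∀ n : ℤ, (shiftFunctor T n).Additive] [Pretriangulated T] [MonoidalCategory T]
  [SymmetricCategory T] [TensorTriangulated T] {R : T} [MonObj R] (U : UnitCof R)

/-- Change of the name of the filtration. -/
lemma B_eq {a a' : ℕ} (h : a = a') (Y : T) : U.cobar.B a Y = U.cobar.B a' Y := by rw [h]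

@[reassoc]
theorem BB_bd (s b : ℕ) (Y : T) :
    (BB U.cobar (s + 1) b Y).hom ≫ eqToHom (B_eq U (show s + 1 + b = s + b + 1 by omega) Y) ≫
      U.bd (s + b) Y = U.bd s (U.cobar.B b Y) ≫ ((BB U.cobar s b Y).hom)⟦(1 : ℤ)⟧' := by
  induction b generalizing Y with
  | zero =>
    have h1 : ((BB U.cobar s 0 Y).hom)⟦(1 : ℤ)⟧' = 𝟙 _ := CategoryTheory.Functor.map_id _ _
    rw [h1]
    refine Eq.trans ?_ (Category.comp_id _).symm
    refine (Category.id_comp _).trans ?_
    exact Category.id_comp _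
  | succ b ih => exact ih (U.J ⊗ Y)

@[reassoc]
theorem BB_k (s b : ℕ) (Y : T) :
    U.cobar.k s (U.cobar.B b Y) ≫ (BB U.cobar (s + 1) b Y).hom ≫
      eqToHom (B_eq U (show s + 1 + b = s + b + 1 by omega) Y) =
      (R ◁ (BB U.cobar s b Y).hom) ≫ U.cobar.k (s + b) Y := by
  induction b generalizing Y with
  | zero =>
    have h1 : (R ◁ (BB U.cobar s 0 Y).hom) = 𝟙 _ := MonoidalCategory.whiskerLeft_id _ _
    rw [h1]
    refine Eq.trans ?_ (Category.id_comp _).symm
    refine (congrArg _ (Category.id_comp _)).trans ?_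
    exact Category.comp_id _
  | succ b ih => exact ih (U.J ⊗ Y)

/-- Iterated shift. -/
noncomputable def shN : ℕ → T → T
  | 0, Y => Y
  | n + 1, Y => (shN n Y)⟦(1 : ℤ)⟧

/-- Iterated connecting map. -/
noncomputable def bdN : ∀ (r b : ℕ) (Y : T), U.cobar.B (b + r) Y ⟶ shN r (U.cobar.B b Y)
  | 0, _, _ => 𝟙 _
  | r + 1, b, Y => U.bd (b + r) Y ≫ (bdN r b Y)⟦(1 : ℤ)⟧'

theorem bdN_succ (r b : ℕ) (Y : T) :
    bdN U (r + 1) b Y = U.bd (b + r) Y ≫ (bdN U r b Y)⟦(1 : ℤ)⟧' := rfl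

/-- The projection of the couple and the iterated connecting map. -/
theorem proj_eq_zero_iff {X : T} {b r : ℕ} {m t : ℤ} (h : m + ((b + r : ℕ) : ℤ) = t)
    (y : (cpl U X).D (b + r) m) : (cpl U X).proj m (Nat.le_add_right b r) y = 0 ↔
      dT U X (𝟙_ T) h y ≫ bdN U r b X = 0 := by
  induction r generalizing t with
  | zero =>
    have h1 : (cpl U X).proj m (Nat.le_add_right b 0) y = y := Couple.proj_self _ _ _ _
    have h2 : dT U X (𝟙_ T) h y ≫ bdN U 0 b X = dT U X (𝟙_ T) h y := Category.comp_id _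
    rw [h1, h2]
    exact (AddEquiv.map_eq_zero_iff (dT U X (𝟙_ T) h)).symm
  | succ r ih =>
    have h' : m + ((b + r : ℕ) : ℤ) = t - 1 := by push_cast at h ⊢; linarith
    have h1 := ih h' ((cpl U X).i (b + r) m y)
    have h2 : (cpl U X).proj m (Nat.le_add_right b (r + 1)) y =
        (cpl U X).proj m (Nat.le_add_right b r) ((cpl U X).i (b + r) m y) :=
      Couple.proj_succ _ m (Nat.le_add_right b r) y
    have h3 := dT_i U X (𝟙_ T) h' h (show t - 1 + 1 = t by ring) y
    rw [h2, h1, ← AddEquiv.map_eq_zero_iff (sh (t - 1) 1 t (by ring)), sh_comp, h3,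
      Category.assoc, bdN_succ]
    rfl

end Vale.Agent.P257.V4.E
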