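import Vale.Agent.P251.S.Cobar

/-!
# P257, part E: products in the cobar complex, arbitrary degrees

`K : CobarData C`. All recursions are on the inner side.

* `oM K b Y : Q (b+1) Y ≅ M (Q b Y)`: the outermost factor;
* `QQ K a b Y : Q a (Q b Y) ≅ Q (a+b) Y`, `BB K a b Y : B a (B b Y) ≅ B (a+b) Y`;
* `rB K b Y : Q b Y ⟶ B b Y`: the projection; `q_eq`;
* `cupG K z s : Q (s+1) Y' ⟶ Q (s+b+1) Y` for `z : Y' ⟶ Q (b+1) Y`: the cup product with `z` on
  the inner side;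
* `cupG_q`: if the image of `z` in the `E_1`-complex is the image of `x : Y' ⟶ B b Y`, then the cup
  product with `z` induces the map `M (B s x)` of the tower.
-/

open CategoryTheory

universe v u

namespace Vale.Agent.P257.V4.E

open Vale.Agent.P251.S

variable {C : Type u} [Category.{v} C] [Preadditive C] (K : CobarData C)

/-- The outermost factor of `Q (b+1) Y`. -/
def oM : ∀ (b : ℕ) (Y : C), K.Q (b + 1) Y ≅ K.M.obj (K.Q b Y)
  | 0, _ => Iso.refl _
  | b + 1, Y => oM b (K.M.obj Y)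

lemma oM_zero (Y : C) : oM K 0 Y = Iso.refl _ := rfl

lemma oM_succ (b : ℕ) (Y : C) : oM K (b + 1) Y = oM K b (K.M.obj Y) := rfl

@[reassoc]
lemma oM_naturality (b : ℕ) {X Y : C} (f : X ⟶ Y) :
    K.Qm (b + 1) f ≫ (oM K b Y).hom = (oM K b X).hom ≫ K.M.map (K.Qm b f) := by
  induction b generalizing X Y with
  | zero => exact (Category.comp_id _).trans (Category.id_comp _).symm
  | succ b ih => exact ih (K.M.map f)

/-- `Q a (Q b Y) ≅ Q (a+b) Y`. -/
def QQ (a : ℕ) : ∀ (b : ℕ) (Y : C), K.Q a (K.Q b Y) ≅ K.Q (a + b) Y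
  | 0, _ => Iso.refl _
  | b + 1, Y => QQ a b (K.M.obj Y)

lemma QQ_zero (a : ℕ) (Y : C) : QQ K a 0 Y = Iso.refl _ := rfl

lemma QQ_succ (a b : ℕ) (Y : C) : QQ K a (b + 1) Y = QQ K a b (K.M.obj Y) := rfl

@[reassoc]
lemma QQ_naturality (a b : ℕ) {X Y : C} (f : X ⟶ Y) :
    K.Qm a (K.Qm b f) ≫ (QQ K a b Y).hom = (QQ K a b X).hom ≫ K.Qm (a + b) f := by
  induction b generalizing X Y with
  | zero => exact (Category.comp_id _).trans (Category.id_comp _).symm
  | succ b ih => exact ih (K.M.map f)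

/-- `B a (B b Y) ≅ B (a+b) Y`. -/
def BB (a : ℕ) : ∀ (b : ℕ) (Y : C), K.B a (K.B b Y) ≅ K.B (a + b) Y
  | 0, _ => Iso.refl _
  | b + 1, Y => BB a b (K.G.obj Y)

lemma BB_zero (a : ℕ) (Y : C) : BB K a 0 Y = Iso.refl _ := rfl

lemma BB_succ (a b : ℕ) (Y : C) : BB K a (b + 1) Y = BB K a b (K.G.obj Y) := rfl

@[reassoc]
lemma BB_naturality (a b : ℕ) {X Y : C} (f : X ⟶ Y) :
    K.Bm a (K.Bm b f) ≫ (BB K a b Y).hom = (BB K a b X).hom ≫ K.Bm (a + b) f := by
  induction b generalizing X Y with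
  | zero => exact (Category.comp_id _).trans (Category.id_comp _).symm
  | succ b ih => exact ih (K.G.map f)

/-- The projection `Q b Y ⟶ B b Y`. -/
def rB : ∀ (b : ℕ) (Y : C), K.Q b Y ⟶ K.B b Y
  | 0, _ => 𝟙 _
  | b + 1, Y => K.Qm b (K.ρ Y) ≫ rB b (K.G.obj Y)

lemma rB_zero (Y : C) : rB K 0 Y = 𝟙 _ := rfl

lemma rB_succ (b : ℕ) (Y : C) : rB K (b + 1) Y = K.Qm b (K.ρ Y) ≫ rB K b (K.G.obj Y) := rfl

@[reassoc]
lemma rB_naturality (b : ℕ) {X Y : C} (f : X ⟶ Y) :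
    K.Qm b f ≫ rB K b Y = rB K b X ≫ K.Bm b f := by
  induction b generalizing X Y with
  | zero => exact (Category.comp_id _).trans (Category.id_comp _).symm
  | succ b ih =>
    have h1 : K.Qm (b + 1) f ≫ K.Qm b (K.ρ Y) = K.Qm b (K.ρ X) ≫ K.Qm b (K.G.map f) := by
      rw [CobarData.Qm_succ, ← CobarData.Qm_comp, ← CobarData.Qm_comp, K.ρ_nat]
    rw [rB_succ, rB_succ, reassoc_of% h1, ih, Category.assoc]
    rfl

/-- The projection to the `E_1`-complex. -/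
lemma q_eq (b : ℕ) (Y : C) : K.q b Y = (oM K b Y).hom ≫ K.M.map (rB K b Y) := by
  induction b generalizing Y with
  | zero =>
    rw [CobarData.q_zero, rB_zero, CategoryTheory.Functor.map_id, Category.comp_id]
    rfl
  | succ b ih =>
    rw [CobarData.q_succ, ih, rB_succ, Functor.map_comp, oM_naturality_assoc]
    rfl

/-- The projection to the `E_1`-complex, in two steps. -/
lemma QQ_q (s b : ℕ) (Y : C) :
    (QQ K s (b + 1) Y).hom ≫ K.q (s + b) Y =
      K.Qm s (K.q b Y) ≫ K.q s (K.B b Y) ≫ K.M.map (BB K s b Y).hom := by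
  induction b generalizing Y with
  | zero =>
    rw [CobarData.q_zero, CobarData.Qm_id, Category.id_comp, BB_zero, Iso.refl_hom,
      CategoryTheory.Functor.map_id, Category.comp_id]
    exact Category.id_comp _
  | succ b ih =>
    have h1 := QQ_naturality K s (b + 1) (K.ρ Y)
    have h2 : K.q (s + (b + 1)) Y = K.Qm (s + (b + 1)) (K.ρ Y) ≫ K.q (s + b) (K.G.obj Y) := rfl
    have h3 : (QQ K s (b + 1 + 1) Y).hom ≫ K.Qm (s + (b + 1)) (K.ρ Y) =
        K.Qm s (K.Qm (b + 1) (K.ρ Y)) ≫ (QQ K s (b + 1) (K.G.obj Y)).hom := h1.symm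
    rw [h2, reassoc_of% h3, ih (K.G.obj Y), CobarData.q_succ, CobarData.Qm_comp, Category.assoc]
    rfl

/-- The cup product, on the inner side, with a cochain `z : Y' ⟶ Q (b+1) Y` of degree `b`. -/
def cupG {b : ℕ} {Y' Y : C} (z : Y' ⟶ K.Q (b + 1) Y) (s : ℕ) :
    K.Q (s + 1) Y' ⟶ K.Q (s + b + 1) Y :=
  K.Qm s (K.M.map (z ≫ (oM K b Y).hom) ≫ K.mu (K.Q b Y) ≫ (oM K b Y).inv) ≫
    (QQ K s (b + 1) Y).hom

/-- If the image of the cochain `z` in the `E_1`-complex is the image of `x : Y' ⟶ B b Y`, then the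
cup product with `z` induces the map `M (B s x)` of the tower. -/
lemma cupG_q {b : ℕ} {Y' Y : C} (z : Y' ⟶ K.Q (b + 1) Y) (x : Y' ⟶ K.B b Y)
    (hz : z ≫ K.q b Y = x ≫ K.un (K.B b Y)) (s : ℕ) :
    cupG K z s ≫ K.q (s + b) Y =
      K.q s Y' ≫ K.M.map (K.Bm s x) ≫ K.M.map (BB K s b Y).hom := by
  have h1 : (K.M.map (z ≫ (oM K b Y).hom) ≫ K.mu (K.Q b Y) ≫ (oM K b Y).inv) ≫ K.q b Y =
      K.M.map x := by
    rw [q_eq, Category.assoc, Category.assoc, Iso.inv_hom_id_assoc, ← K.mu_nat,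
      ← Functor.map_comp_assoc, Category.assoc, ← q_eq, hz, Functor.map_comp, Category.assoc,
      K.right_unit, Category.comp_id]
  have h2 : K.Qm s (K.M.map (z ≫ (oM K b Y).hom) ≫ K.mu (K.Q b Y) ≫ (oM K b Y).inv) ≫
      K.Qm s (K.q b Y) = K.Qm (s + 1) x := by
    rw [← CobarData.Qm_comp, h1]
    rfl
  rw [cupG, Category.assoc, QQ_q, reassoc_of% h2, CobarData.q_naturality_assoc]

end Vale.Agent.P257.V4.E
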