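import Vale.Agent.P257.V4.E.CupX

/-!
# P257, part E: multiplication by elements of `π_* R` on the outermost factor

* `lQ U s Y : R ⊗ Q (s+1) Y ⟶ Q (s+1) Y`, `lA R s : R ⊗ Am R (s+1) ⟶ Am R (s+1)`: multiplication on
  vertex `0` (`lQ_nat`, `lQ_q`, `lQ_θ`);
* `RMod.vB v : S^{2w} ⟶ R` for `v : K.wt 0 w`, `RMod.qX_zero : qX v = vB v ≫ ux u R`;
* `RMod.qX_mul` : the class of `v a` in `E_1`.
-/

open CategoryTheory MonoidalCategory Limits Pretriangulated MonObj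

set_option linter.unusedSectionVars false

universe v u

namespace Vale.Agent.P257.V4.E

open Vale.Agent.P251.T Vale.Agent.P251.M Vale.Agent.P251.S

section tower

variable {T : Type u} [Category.{v} T] [Preadditive T] [HasZeroObject T] [HasShift T ℤ]
  [∀ n : ℤ, (shiftFunctor T n).Additive] [Pretriangulated T] [MonoidalCategory T]
  [SymmetricCategory T] [TensorTriangulated T] {R : T} [MonObj R] (U : UnitCof R)

/-- The action of `R` on the outermost factor. -/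
def lQ : ∀ (s : ℕ) (Y : T), R ⊗ U.cobar.Q (s + 1) Y ⟶ U.cobar.Q (s + 1) Y
  | 0, Y => mulMap R Y
  | s + 1, Y => lQ s (R ⊗ Y)

theorem lQ_succ (s : ℕ) (Y : T) : lQ U (s + 1) Y = lQ U s (R ⊗ Y) := rfl

@[reassoc]
theorem lQ_nat (s : ℕ) {Y Y' : T} (f : Y ⟶ Y') :
    R ◁ U.cobar.Qm (s + 1) f ≫ lQ U s Y' = lQ U s Y ≫ U.cobar.Qm (s + 1) f := by
  induction s generalizing Y Y' with
  | zero => exact mulMap_nat f
  | succ s ih => exact ih (R ◁ f)

@[reassoc]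
theorem lQ_q (s : ℕ) (Y : T) :
    lQ U s Y ≫ U.cobar.q s Y = R ◁ U.cobar.q s Y ≫ mulMap R (U.cobar.B s Y) := by
  induction s generalizing Y with
  | zero =>
    change mulMap R Y ≫ 𝟙 _ = R ◁ 𝟙 _ ≫ mulMap R Y
    rw [MonoidalCategory.whiskerLeft_id, Category.comp_id, Category.id_comp]
  | succ s ih =>
    have h1 := lQ_nat U s (U.ρ ▷ Y)
    change lQ U s (R ⊗ Y) ≫ U.cobar.Qm (s + 1) (U.ρ ▷ Y) ≫ U.cobar.q s (U.J ⊗ Y) =
      R ◁ (U.cobar.Qm (s + 1) (U.ρ ▷ Y) ≫ U.cobar.q s (U.J ⊗ Y)) ≫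
        mulMap R (U.cobar.B s (U.J ⊗ Y))
    rw [MonoidalCategory.whiskerLeft_comp, Category.assoc, ← ih, reassoc_of% h1]

variable (R) in
/-- The multiplication of `R` on the vertex `0`. -/
def lA (s : ℕ) : R ⊗ Am R (s + 1) ⟶ Am R (s + 1) := Am.v R 0 ▷ _ ≫ μ[Am R (s + 1)]

theorem inlM_mul (A B : T) [MonObj A] [MonObj B] :
    inlM A B ▷ (A ⊗ B) ≫ μ[A ⊗ B] = (α_ A A B).inv ≫ μ[A] ▷ B := by
  have h1 := tensorμ_natural (𝟙 A) η[B] (𝟙 A) (𝟙 B)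
  rw [id_tensorHom_id, tensorHom_id, id_tensorHom, id_tensorHom_id, id_tensorHom,
    tensorHom_id] at h1
  change inlM A B ▷ (A ⊗ B) ≫ tensorμ A B A B ≫ (μ[A] ⊗ₘ μ[B]) = _
  rw [inlM, comp_whiskerRight, Category.assoc, reassoc_of% h1, tensorHom_def',
    ← MonoidalCategory.whiskerLeft_comp_assoc, MonObj.one_mul, tensorμ, braiding_tensorUnit_left]
  monoidal

theorem lA_succ [IsCommMonObj R] (s : ℕ) :
    lA R (s + 1) = (α_ R (Am R (s + 1)) R).inv ≫ lA R s ▷ R := by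
  have h1 : Am.v R (0 : Fin (s + 2)) = Am.v R (0 : Fin (s + 1)) ≫ inlM (Am R (s + 1)) R :=
    Am.v_castSucc R (0 : Fin (s + 1))
  rw [lA, lA, h1, comp_whiskerRight, Category.assoc, inlM_mul, comp_whiskerRight,
    ← associator_inv_naturality_left_assoc]

theorem lA_zero : R ◁ (λ_ R).inv ≫ lA R 0 = μ[R] ≫ (λ_ R).inv := by
  have h1 : Am.v R (0 : Fin 1) = (λ_ R).inv := by
    have h2 : Am.v R (0 : Fin 1) = inrM (Am R 0) R := Am.v_last R 0
    rw [h2]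
    change (λ_ R).inv ≫ η[𝟙_ T] ▷ R = _
    change (λ_ R).inv ≫ (𝟙 (𝟙_ T)) ▷ R = _
    rw [id_whiskerRight, Category.comp_id]
  have h3 : μ[R] ≫ Am.v R (0 : Fin 1) = (Am.v R (0 : Fin 1) ⊗ₘ Am.v R 0) ≫ μ[Am R 1] :=
    IsMonHom.mul_hom _
  rw [← h1, h3, lA, tensorHom_def', Category.assoc]

@[reassoc]
theorem lQ_θ [IsCommMonObj R] (s : ℕ) (Y : T) :
    lQ U s Y ≫ (U.θ (s + 1) Y).hom =
      R ◁ (U.θ (s + 1) Y).hom ≫ (α_ R (Am R (s + 1)) Y).inv ≫ lA R s ▷ Y := by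
  induction s generalizing Y with
  | zero =>
    change mulMap R Y ≫ (λ_ (R ⊗ Y)).inv ≫ (α_ (𝟙_ T) R Y).inv =
      R ◁ ((λ_ (R ⊗ Y)).inv ≫ (α_ (𝟙_ T) R Y).inv) ≫ (α_ R (𝟙_ T ⊗ R) Y).inv ≫ lA R 0 ▷ Y
    have h1 : (λ_ (R ⊗ Y)).inv ≫ (α_ (𝟙_ T) R Y).inv = (λ_ R).inv ▷ Y := by monoidal
    rw [h1, associator_inv_naturality_middle_assoc, ← comp_whiskerRight, lA_zero,
      comp_whiskerRight, mulMap, Category.assoc]
  | succ s ih =>
    rw [UnitCof.θ_succ U (s + 1), Iso.trans_hom, Iso.symm_hom, lQ_succ]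
    have h1 := ih (R ⊗ Y)
    rw [reassoc_of% h1, lA_succ]
    monoidal

end tower

section rmod

variable {T : Type u} [Category.{v} T] [Preadditive T] [HasZeroObject T] [HasShift T ℤ]
  [∀ n : ℤ, (shiftFunctor T n).Additive] [Pretriangulated T] [MonoidalCategory T]
  [SymmetricCategory T] [TensorTriangulated T] [HasCoproducts.{0} T]

namespace RMod

variable {K : CosR} {R : T} [MonObj R] [IsCommMonObj R] (E : RMod K R) (U : UnitCof R)

/-- The element of `π_* R` of a cochain of degree `0`. -/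
noncomputable def vB {w : ℤ} (v : K.wt 0 w) : (stdEven T).S w ⟶ R := E.evw 0 w v ≫ (λ_ R).hom

theorem qX_zero {X : T} (u : 𝟙_ T ⟶ X) {w : ℤ} (v : K.wt 0 w) :
    E.qX U u 0 w v = E.vB v ≫ ux u R := by
  have h1 : (U.θ 1 X).inv = (α_ (𝟙_ T) R X).hom ≫ (λ_ (R ⊗ X)).hom := rfl
  change (E.evX u 0 w v ≫ (U.θ 1 X).inv) ≫ 𝟙 _ = _
  rw [Category.comp_id, h1, evX_apply, vB, Category.assoc, Category.assoc]
  congr 1
  change ((ρ_ (𝟙_ T ⊗ R)).inv ≫ (𝟙_ T ⊗ R) ◁ u) ≫ (α_ (𝟙_ T) R X).hom ≫ (λ_ (R ⊗ X)).hom =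
    (λ_ R).hom ≫ (ρ_ R).inv ≫ R ◁ u
  monoidal

theorem map_zero_vertex (s : ℕ) :
    Am.map R (fun _ : Fin 1 => (0 : Fin (s + 1))) = (λ_ R).hom ≫ Am.v R 0 := by
  have h1 : Am.v R (0 : Fin 1) = (λ_ R).inv := by
    have h2 : Am.v R (0 : Fin 1) = inrM (Am R 0) R := Am.v_last R 0
    rw [h2]
    change (λ_ R).inv ≫ η[𝟙_ T] ▷ R = _
    change (λ_ R).inv ≫ (𝟙 (𝟙_ T)) ▷ R = _
    rw [id_whiskerRight, Category.comp_id]
  have h2 := Am.v_map R (fun _ : Fin 1 => (0 : Fin (s + 1))) 0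
  rw [h1] at h2
  exact (Iso.inv_comp_eq _).1 h2

theorem evX_mul {X : T} (u : 𝟙_ T ⟶ X) {s : ℕ} {wv wa w : ℤ} (h : wv + wa = w)
    (v : K.wt 0 wv) (a : K.wt s wa) :
    E.evX u s w (K.mulw h (K.mapw (fun _ => 0) wv v) a) =
      ((stdEven T).mu wv wa w h).inv ≫ (E.vB v ⊗ₘ E.evX u s wa a) ≫
        (α_ R (Am R (s + 1)) X).inv ≫ lA R s ▷ X := by
  have h1 : E.evw s w (K.mulw h (K.mapw (fun _ => 0) wv v) a) =
      ((stdEven T).mu wv wa w h).inv ≫ (E.vB v ⊗ₘ E.evw s wa a) ≫ lA R s := by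
    rw [evw_mul, evw_map, map_zero_vertex, EvenSpheres.gmul, EvenSpheres.ext, lA, vB,
      ← Category.assoc (E.evw 0 wv v), tensorHom_def', comp_whiskerRight, tensorHom_def']
    simp only [Category.assoc]
  have h2 : ux u (R ⊗ Am R (s + 1)) = R ◁ ux u (Am R (s + 1)) ≫ (α_ R (Am R (s + 1)) X).inv := by
    unfold ux
    monoidal
  rw [evX_apply, h1, Category.assoc, Category.assoc, ← ux_nat, h2, evX_apply, tensorHom_def,
    tensorHom_def]
  simp only [Category.assoc, MonoidalCategory.whiskerLeft_comp]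

/-- **The class of `v a` in `E_1`** (`v` on the outermost vertex). -/
theorem qX_mul {X : T} (u : 𝟙_ T ⟶ X) {s : ℕ} {wv wa w : ℤ} (h : wv + wa = w)
    (v : K.wt 0 wv) (a : K.wt s wa) :
    E.qX U u s w (K.mulw h (K.mapw (fun _ => 0) wv v) a) =
      ((stdEven T).mu wv wa w h).inv ≫ (E.vB v ⊗ₘ E.qX U u s wa a) ≫
        mulMap R (U.cobar.B s X) := by
  have h1 : (α_ R (Am R (s + 1)) X).inv ≫ lA R s ▷ X ≫ (U.θ (s + 1) X).inv =
      R ◁ (U.θ (s + 1) X).inv ≫ lQ U s X := by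
    rw [← cancel_mono (U.θ (s + 1) X).hom, Category.assoc, Category.assoc, Category.assoc,
      lQ_θ, Iso.inv_hom_id, Category.comp_id, ← MonoidalCategory.whiskerLeft_comp_assoc,
      Iso.inv_hom_id, MonoidalCategory.whiskerLeft_id, Category.id_comp]
  rw [qX_apply, cX_apply, evX_mul, qX_apply, cX_apply]
  simp only [Category.assoc]
  rw [reassoc_of% h1, lQ_q, tensorHom_def, tensorHom_def]
  simp only [Category.assoc, MonoidalCategory.whiskerLeft_comp]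

end RMod

end rmod

end Vale.Agent.P257.V4.E
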