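import Vale.Agent.P251.M.EvenShift
import Vale.Agent.P251.M.EvenRing
import Vale.Agent.P251.S.AmitsurCobar
import Vale.Agent.P251.S.TowerR

/-!
# P257, part E: definitions

`R` a commutative monoid of `T`, `Am R n = R^{⊗ n}`.

* `CosR` : a cosimplicial commutative ring `K` with weights; `K.mapw α w`, `K.d s w`, `K.cupw x y`
  on homogeneous elements;
* `RMod K R` : ring homomorphisms `ev s : K s → ⨁_w Hom(S^{2w}, R^{⊗ (s+1)})`, homogeneous and
  compatible with the cosimplicial structures;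
* for `u : 𝟙 ⟶ X` : `E.evX u s w : K_w^s →+ Hom(S^{2w}, R^{⊗ (s+1)} ⊗ X)`, `z ↦ z ⊗ u`, its kernel
  `E.kx u s w`;
* `E.XM q u` : `π_k (R^{⊗ (s+1)} ⊗ X) = 0` unless `q ∣ k`, and all `E.evX u s w` are onto.
-/

open CategoryTheory MonoidalCategory Limits Pretriangulated MonObj

set_option linter.unusedSectionVars false

universe v u

namespace Vale.Agent.P257.V4.E

open Vale.Agent.P251.T Vale.Agent.P251.M Vale.Agent.P251.S

/-- A cosimplicial commutative ring with weights. -/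
structure CosR where
  /-- the rings -/
  A : ℕ → Type
  [ring : ∀ s, CommRing (A s)]
  /-- the elements of weight `w` -/
  wt (s : ℕ) (w : ℤ) : AddSubgroup (A s)
  mul_mem {s : ℕ} {w v : ℤ} {x y : A s} : x ∈ wt s w → y ∈ wt s v → x * y ∈ wt s (w + v)
  /-- the cosimplicial maps -/
  map {m n : ℕ} (α : Fin (m + 1) → Fin (n + 1)) : A m →+* A n
  map_mem {m n : ℕ} (α : Fin (m + 1) → Fin (n + 1)) {w : ℤ} {x : A m} :
    x ∈ wt m w → map α x ∈ wt n w
  map_map {l m n : ℕ} (α : Fin (l + 1) → Fin (m + 1)) (β : Fin (m + 1) → Fin (n + 1)) (x : A l) :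
    map β (map α x) = map (β ∘ α) x

attribute [instance] CosR.ring

namespace CosR

variable (K : CosR)

/-- The cosimplicial maps on homogeneous elements. -/
def mapw {m n : ℕ} (α : Fin (m + 1) → Fin (n + 1)) (w : ℤ) : K.wt m w →+ K.wt n w :=
  AddMonoidHom.mk' (fun x => ⟨K.map α x.1, K.map_mem α x.2⟩)
    fun x y => Subtype.ext (map_add (K.map α) x.1 y.1)

@[simp] theorem coe_mapw {m n : ℕ} (α : Fin (m + 1) → Fin (n + 1)) (w : ℤ) (x : K.wt m w) :
    (K.mapw α w x : K.A n) = K.map α x.1 := rfl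

/-- The differential. -/
def d (s : ℕ) (w : ℤ) : K.wt s w →+ K.wt (s + 1) w :=
  ∑ i : Fin (s + 2), (-1 : ℤ) ^ (i : ℕ) • K.mapw (Fin.succAbove i) w

theorem d_apply (s : ℕ) (w : ℤ) (x : K.wt s w) :
    K.d s w x = ∑ i : Fin (s + 2), (-1 : ℤ) ^ (i : ℕ) • K.mapw (Fin.succAbove i) w x := by
  simp [d]

/-- The product of homogeneous elements. -/
def mulw {s : ℕ} {w v w' : ℤ} (h : w + v = w') (x : K.wt s w) (y : K.wt s v) : K.wt s w' :=
  ⟨x.1 * y.1, h ▸ K.mul_mem x.2 y.2⟩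

/-- The inclusion of the first vertices. -/
def front (a b : ℕ) : Fin (a + 1) → Fin (a + b + 1) := fun i => ⟨i, by omega⟩

/-- The inclusion of the last vertices. -/
def back (a b : ℕ) : Fin (b + 1) → Fin (a + b + 1) := fun i => ⟨a + i, by omega⟩

/-- The cup product of homogeneous elements. -/
def cupw {a b : ℕ} {w v w' : ℤ} (h : w + v = w') (x : K.wt a w) (y : K.wt b v) :
    K.wt (a + b) w' :=
  K.mulw h (K.mapw (front a b) w x) (K.mapw (back a b) v y)

end CosR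

variable {T : Type u} [Category.{v} T] [Preadditive T] [HasZeroObject T]
    [HasShift T ℤ] [∀ n : ℤ, (shiftFunctor T n).Additive] [Pretriangulated T]
    [MonoidalCategory T] [SymmetricCategory T] [TensorTriangulated T] [HasCoproducts.{0} T]

/-- Ring homomorphisms from a cosimplicial ring to the homotopy of the tensor powers of `R`. -/
structure RMod (K : CosR) (R : T) [MonObj R] [IsCommMonObj R] where
  /-- the homomorphisms -/
  ev (s : ℕ) : K.A s →+* HRing (stdEven T) (Am R (s + 1))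
  ev_wt (s : ℕ) (w : ℤ) (z : K.A s) (hz : z ∈ K.wt s w) :
    ∃ a : (stdEven T).S w ⟶ Am R (s + 1), ev s z = HRing.of (stdEven T) (Am R (s + 1)) w a
  ev_map (m n : ℕ) (α : Fin (m + 1) → Fin (n + 1)) (z : K.A m) :
    HRing.map (E := stdEven T) (Am.map R α) (ev m z) = ev n (K.map α z)

/-- `N ⟶ N ⊗ X` for `u : 𝟙 ⟶ X`. -/
def ux {X : T} (u : 𝟙_ T ⟶ X) (N : T) : N ⟶ N ⊗ X := (ρ_ N).inv ≫ (N ◁ u)

omit [HasCoproducts.{0} T] in
@[reassoc]
theorem ux_nat {X : T} (u : 𝟙_ T ⟶ X) {N N' : T} (f : N ⟶ N') :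
    ux u N ≫ f ▷ X = f ≫ ux u N' := by
  unfold ux
  rw [Category.assoc, whisker_exchange, rightUnitor_inv_naturality_assoc]

omit [HasCoproducts.{0} T] in
@[reassoc]
theorem ux_comp {X X' : T} (u : 𝟙_ T ⟶ X) (f : X ⟶ X') (N : T) :
    ux u N ≫ N ◁ f = ux (u ≫ f) N := by
  unfold ux
  rw [Category.assoc, ← MonoidalCategory.whiskerLeft_comp]

omit [HasCoproducts.{0} T] in
theorem of_inj {X : T} {w : ℤ} {a b : (stdEven T).S w ⟶ X}
    (h : HRing.of (stdEven T) X w a = HRing.of (stdEven T) X w b) : a = b :=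
  DirectSum.of_injective (β := (stdEven T).Gr X) w h

namespace RMod

variable {K : CosR} {R : T} [MonObj R] [IsCommMonObj R] (E : RMod K R)

/-- The homogeneous parts of `ev`. -/
noncomputable def evw (s : ℕ) (w : ℤ) : K.wt s w →+ ((stdEven T).S w ⟶ Am R (s + 1)) :=
  AddMonoidHom.mk' (fun z => (E.ev_wt s w z.1 z.2).choose) fun z z' => by
    apply of_inj
    have h1 := (E.ev_wt s w (z + z').1 (z + z').2).choose_spec
    have h2 := (E.ev_wt s w z.1 z.2).choose_spec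
    have h3 := (E.ev_wt s w z'.1 z'.2).choose_spec
    rw [← h1]
    refine Eq.trans ?_ ((DirectSum.of ((stdEven T).Gr (Am R (s + 1))) w).map_add _ _).symm
    exact (map_add (E.ev s) z.1 z'.1).trans (congrArg₂ (· + ·) h2 h3)

theorem of_evw {s : ℕ} {w : ℤ} (z : K.wt s w) :
    HRing.of (stdEven T) (Am R (s + 1)) w (E.evw s w z) = E.ev s z.1 :=
  (E.ev_wt s w z.1 z.2).choose_spec.symm

theorem evw_eq {s : ℕ} {w : ℤ} {z : K.wt s w} {a : (stdEven T).S w ⟶ Am R (s + 1)}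
    (h : E.ev s z.1 = HRing.of (stdEven T) (Am R (s + 1)) w a) : E.evw s w z = a :=
  of_inj ((E.of_evw z).trans h)

/-- Compatibility with the cosimplicial maps. -/
theorem evw_map {m n : ℕ} {w : ℤ} (α : Fin (m + 1) → Fin (n + 1)) (z : K.wt m w) :
    E.evw n w (K.mapw α w z) = E.evw m w z ≫ Am.map R α := by
  apply E.evw_eq
  rw [CosR.coe_mapw, ← E.ev_map, ← E.of_evw, HRing.map_of]

/-- Compatibility with the products. -/
theorem evw_mul {s : ℕ} {w v w' : ℤ} (h : w + v = w') (x : K.wt s w) (y : K.wt s v) :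
    E.evw s w' (K.mulw h x y) = EvenSpheres.gmul h (E.evw s w x) (E.evw s v y) := by
  apply E.evw_eq
  change E.ev s (x.1 * y.1) = _
  rw [map_mul, ← E.of_evw x, ← E.of_evw y]
  exact of_mul_of h _ _

/-- The element `z ⊗ u`. -/
noncomputable def evX {X : T} (u : 𝟙_ T ⟶ X) (s : ℕ) (w : ℤ) :
    K.wt s w →+ ((stdEven T).S w ⟶ Am R (s + 1) ⊗ X) :=
  AddMonoidHom.mk' (fun z => E.evw s w z ≫ ux u _) fun z z' => by
    rw [map_add, Preadditive.add_comp]

theorem evX_apply {X : T} (u : 𝟙_ T ⟶ X) (s : ℕ) (w : ℤ) (z : K.wt s w) :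
    E.evX u s w z = E.evw s w z ≫ ux u _ := rfl

/-- The homogeneous elements which are zero on `X`. -/
noncomputable def kx {X : T} (u : 𝟙_ T ⟶ X) (s : ℕ) (w : ℤ) : AddSubgroup (K.wt s w) :=
  (E.evX u s w).ker

theorem mem_kx {X : T} {u : 𝟙_ T ⟶ X} {s : ℕ} {w : ℤ} {z : K.wt s w} :
    z ∈ E.kx u s w ↔ E.evX u s w z = 0 := Iff.rfl

theorem evX_map {X : T} (u : 𝟙_ T ⟶ X) {m n : ℕ} {w : ℤ} (α : Fin (m + 1) → Fin (n + 1))
    (z : K.wt m w) :
    E.evX u n w (K.mapw α w z) = E.evX u m w z ≫ Am.map R α ▷ X := by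
  rw [evX_apply, evX_apply, evw_map, Category.assoc, Category.assoc, ux_nat]

theorem evX_d {X : T} (u : 𝟙_ T ⟶ X) (s : ℕ) (w : ℤ) (z : K.wt s w) :
    E.evX u (s + 1) w (K.d s w z) = E.evX u s w z ≫ ∑ i : Fin (s + 2), (-1 : ℤ) ^ (i : ℕ) •
      (Am.map R (Fin.succAbove i : Fin (s + 1) → Fin (s + 2)) ▷ X) := by
  rw [CosR.d_apply, map_sum, Preadditive.comp_sum]
  refine Finset.sum_congr rfl fun i _ => ?_
  rw [map_zsmul, Preadditive.comp_zsmul, evX_map]

theorem evX_comp {X X' : T} (u : 𝟙_ T ⟶ X) (f : X ⟶ X') (s : ℕ) (w : ℤ) (z : K.wt s w) :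
    E.evX u s w z ≫ Am R (s + 1) ◁ f = E.evX (u ≫ f) s w z := by
  rw [evX_apply, evX_apply, Category.assoc, ux_comp]

/-- `π_k (R^{⊗ (s+1)} ⊗ X) = 0` unless `q ∣ k`, and the homotopy of `R^{⊗ (s+1)} ⊗ X` is generated
by `u`. -/
structure XM (q : ℤ) {X : T} (u : 𝟙_ T ⟶ X) : Prop where
  spa (s : ℕ) (k : ℤ) (hk : ¬ q ∣ k) (f : (𝟙_ T)⟦k⟧ ⟶ Am R (s + 1) ⊗ X) : f = 0
  surj (s : ℕ) (w : ℤ) : Function.Surjective (E.evX u s w)

end RMod

end Vale.Agent.P257.V4.E
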