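import Vale.Agent.P257.V4.E.CupG
import Vale.Agent.P257.V4.E.Defs
import Vale.Agent.P251.S.AmitsurCup

/-!
# P257, part E: the cup product in terms of the tensor powers `R^{⊗ n}`, arbitrary degrees

* `conc R a b : Am R (a+1) ⊗ Am R (b+1) ⟶ Am R (a+b+1)`: the product of the front face and the
  back face;
* `cupG_θ`: the cup product `cupG` in terms of `conc`;
* `evX_cup`: the cup product of homogeneous elements of a cosimplicial ring.
-/

set_option linter.unusedSectionVars false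

open CategoryTheory MonoidalCategory Limits Pretriangulated MonObj

universe v u

namespace Vale.Agent.P257.V4.E

open Vale.Agent.P251.T Vale.Agent.P251.S Vale.Agent.P251.M

section Monoids

variable {T : Type u} [Category.{v} T] [MonoidalCategory T] [SymmetricCategory T]

section

variable (R : T) [MonObj R]

/-- `R^{⊗ a} ⊗ R^{⊗ b} ⟶ R^{⊗ (a+b)}` -/
def catA (a : ℕ) : ∀ b : ℕ, Am R a ⊗ Am R b ⟶ Am R (a + b)
  | 0 => (ρ_ (Am R a)).hom
  | b + 1 => (α_ (Am R a) (Am R b) R).inv ≫ (catA a b ▷ R)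

lemma catA_zero (a : ℕ) : catA R a 0 = (ρ_ (Am R a)).hom := rfl

lemma catA_succ (a b : ℕ) :
    catA R a (b + 1) = (α_ (Am R a) (Am R b) R).inv ≫ (catA R a b ▷ R) := rfl

/-- `R ⊗ R^{⊗ b} ≅ R^{⊗ (b+1)}` -/
def consA : ∀ b : ℕ, R ⊗ Am R b ≅ Am R (b + 1)
  | 0 => ρ_ R ≪≫ (λ_ R).symm
  | b + 1 => (α_ R (Am R b) R).symm ≪≫ whiskerRightIso (consA b) R

lemma consA_zero : consA R 0 = ρ_ R ≪≫ (λ_ R).symm := rfl

lemma consA_succ (b : ℕ) :
    consA R (b + 1) = (α_ R (Am R b) R).symm ≪≫ whiskerRightIso (consA R b) R := rfl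

/-- The multiplication of the first factor of `R^{⊗ (b+1)}`. -/
def mulA (b : ℕ) : R ⊗ Am R (b + 1) ⟶ Am R (b + 1) :=
  (R ◁ (consA R b).inv) ≫ (α_ R R (Am R b)).inv ≫ (μ[R] ▷ Am R b) ≫ (consA R b).hom

instance isMonHom_catA (a b : ℕ) : IsMonHom (catA R a b) := by
  induction b with
  | zero => exact inferInstanceAs (IsMonHom (ρ_ (Am R a)).hom)
  | succ b ih => exact inferInstanceAs (IsMonHom ((α_ (Am R a) (Am R b) R).inv ≫ (catA R a b ▷ R)))

instance isMonHom_consA_hom (b : ℕ) : IsMonHom (consA R b).hom := by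
  induction b with
  | zero => exact inferInstanceAs (IsMonHom ((ρ_ R).hom ≫ (λ_ R).inv))
  | succ b ih =>
    exact inferInstanceAs (IsMonHom ((α_ R (Am R b) R).inv ≫ ((consA R b).hom ▷ R)))

instance isMonHom_consA_inv (b : ℕ) : IsMonHom (consA R b).inv := by
  induction b with
  | zero => exact inferInstanceAs (IsMonHom ((λ_ R).hom ≫ (ρ_ R).inv))
  | succ b ih =>
    exact inferInstanceAs (IsMonHom (((consA R b).inv ▷ R) ≫ (α_ R (Am R b) R).hom))

instance isMonHom_mulA [IsCommMonObj R] (b : ℕ) : IsMonHom (mulA R b) := by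
  unfold mulA
  infer_instance

end

variable (R : T) [MonObj R] [IsCommMonObj R]

lemma inlM_catA (a b : ℕ) :
    inlM (Am R a) (Am R b) ≫ catA R a b = Am.map R (Fin.castAdd b) := by
  induction b with
  | zero =>
    rw [catA_zero, inlM]
    have h : η[Am R 0] = 𝟙 (𝟙_ T) := rfl
    rw [h, MonoidalCategory.whiskerLeft_id, Category.comp_id, Iso.inv_hom_id]
    exact (Am.map_id R).symm
  | succ b ih =>
    rw [catA_succ, inlM_associator_inv_assoc, inlM_whiskerRight, reassoc_of% ih]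
    symm
    apply Am.map_eq_of
    intro i
    have h : Fin.castAdd (b + 1) i = (Fin.castAdd b i).castSucc := rfl
    rw [Am.v_map_assoc, h]
    exact (Am.v_castSucc R _).symm

lemma inrM_catA (a b : ℕ) :
    inrM (Am R a) (Am R b) ≫ catA R a b = Am.map R (Fin.natAdd a) := by
  induction b with
  | zero =>
    have h1 : IsMonHom (inrM (Am R a) (Am R 0) ≫ catA R a 0) := inferInstance
    symm
    exact Am.map_eq_of R _ _ fun i => i.elim0
  | succ b ih =>
    rw [catA_succ, inrM_associator_inv_assoc, ← comp_whiskerRight, ih]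
    symm
    apply Am.map_eq_of
    intro i
    refine Fin.lastCases ?_ (fun j => ?_) i
    · have h : Fin.natAdd a (Fin.last b) = Fin.last (a + b) := rfl
      rw [Am.v_last, inrM_whiskerRight, h]
      exact (Am.v_last R _).symm
    · have h : Fin.natAdd a j.castSucc = (Fin.natAdd a j).castSucc := rfl
      rw [Am.v_castSucc, Category.assoc, inlM_whiskerRight, Am.v_map_assoc, h]
      exact (Am.v_castSucc R _).symm

lemma inlM_consA (b : ℕ) : inlM R (Am R b) ≫ (consA R b).hom = Am.v R (0 : Fin (b + 1)) := by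
  induction b with
  | zero =>
    have h : η[Am R 0] = 𝟙 (𝟙_ T) := rfl
    have h0 : (0 : Fin 1) = Fin.last 0 := rfl
    rw [consA_zero, Iso.trans_hom, Iso.symm_hom, inlM, h, MonoidalCategory.whiskerLeft_id,
      Category.comp_id, Iso.inv_hom_id_assoc, h0, Am.v_last, inrM, h, id_whiskerRight,
      Category.comp_id]
  | succ b ih =>
    have h0 : (0 : Fin (b + 2)) = (0 : Fin (b + 1)).castSucc := rfl
    rw [consA_succ, Iso.trans_hom, Iso.symm_hom, whiskerRightIso_hom, inlM_associator_inv_assoc,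
      inlM_whiskerRight, reassoc_of% ih, h0, Am.v_castSucc]

lemma inlM_mulA (b : ℕ) : inlM R (Am R (b + 1)) ≫ mulA R b = Am.v R (0 : Fin (b + 1)) := by
  rw [mulA, inlM_whiskerLeft_assoc, inlM_associator_inv_assoc, inlM_whiskerRight_assoc,
    inlM_mul_assoc, inlM_consA]

lemma inrM_mulA (b : ℕ) : inrM R (Am R (b + 1)) ≫ mulA R b = 𝟙 _ := by
  rw [mulA, inrM_whiskerLeft_assoc, inrM_associator_inv_assoc, ← comp_whiskerRight_assoc,
    inrM_mul, id_whiskerRight, Category.id_comp, Iso.inv_hom_id]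

/-- The product of the front face and the back face. -/
def conc (a b : ℕ) : Am R (a + 1) ⊗ Am R (b + 1) ⟶ Am R (a + b + 1) :=
  descM (Am.map R (CosR.front a b)) (Am.map R (CosR.back a b))

instance isMonHom_conc (a b : ℕ) : IsMonHom (conc R a b) := by
  unfold conc
  infer_instance

@[reassoc]
lemma inlM_conc (a b : ℕ) :
    inlM (Am R (a + 1)) (Am R (b + 1)) ≫ conc R a b = Am.map R (CosR.front a b) :=
  inlM_descM _ _

@[reassoc]
lemma inrM_conc (a b : ℕ) :
    inrM (Am R (a + 1)) (Am R (b + 1)) ≫ conc R a b = Am.map R (CosR.back a b) :=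
  inrM_descM _ _

lemma conc_eq (a b : ℕ) : conc R a b = (α_ (Am R a) R (Am R (b + 1))).hom ≫
    (Am R a ◁ mulA R b) ≫ catA R a (b + 1) := by
  apply hom_ext_tensor (X := Am R (a + 1)) (Y := Am R (b + 1))
  · rw [inlM_conc]
    apply Am.map_eq_of
    intro i
    refine Fin.lastCases ?_ (fun j => ?_) i
    · have h : CosR.front a b (Fin.last a) = Fin.natAdd a (0 : Fin (b + 1)) := rfl
      rw [Am.v_last, inlM_associator_assoc, inrM_whiskerLeft_assoc, inrM_whiskerLeft_assoc,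
        inrM_catA, ← Category.assoc, inlM_mulA, Am.v_map, h]
    · have h : CosR.front a b j.castSucc = Fin.castAdd (b + 1) j := rfl
      rw [Am.v_castSucc, Category.assoc, inlM_associator_assoc, inlM_whiskerLeft_assoc,
        inlM_whiskerLeft_assoc, inlM_catA, Am.v_map, h]
  · rw [inrM_conc, inrM_associator_assoc, inrM_whiskerLeft_assoc, inrM_catA, ← Category.assoc,
      inrM_mulA, Category.id_comp]
    rfl

end Monoids

variable {T : Type u} [Category.{v} T] [Preadditive T] [HasZeroObject T] [HasShift T ℤ]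
  [∀ n : ℤ, (shiftFunctor T n).Additive] [Pretriangulated T] [MonoidalCategory T]
  [SymmetricCategory T] [TensorTriangulated T]

section

variable {R : T} [MonObj R] (U : UnitCof R)

@[reassoc]
lemma QQ_θ (a b : ℕ) (Y : T) :
    (QQ U.cobar a b Y).hom ≫ (U.θ (a + b) Y).hom =
      (U.θ a (U.cobar.Q b Y)).hom ≫ (Am R a ◁ (U.θ b Y).hom) ≫
        (α_ (Am R a) (Am R b) Y).inv ≫ (catA R a b ▷ Y) := by
  induction b generalizing Y with
  | zero =>
    have h : (Am R a ◁ (λ_ Y).inv) ≫ (α_ (Am R a) (𝟙_ T) Y).inv ≫ ((ρ_ (Am R a)).hom ▷ Y) =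
        𝟙 _ := by monoidal
    rw [QQ_zero, Iso.refl_hom, Category.id_comp, catA_zero]
    refine ((Category.comp_id _).symm.trans ?_)
    exact congrArg _ h.symm
  | succ b ih =>
    have h : ((Am R a) ◁ (α_ (Am R b) R Y).inv) ≫ (α_ (Am R a) (Am R b ⊗ R) Y).inv ≫
        ((α_ (Am R a) (Am R b) R).inv ▷ Y) ≫ ((catA R a b ▷ R) ▷ Y) =
        (α_ (Am R a) (Am R b) (R ⊗ Y)).inv ≫ (catA R a b ▷ (R ⊗ Y)) ≫
          (α_ (Am R (a + b)) R Y).inv := by
      monoidal
    have h1 := ih (R ⊗ Y)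
    have e1 : (U.θ (a + (b + 1)) Y).hom = (U.θ (a + b) (R ⊗ Y)).hom ≫
      (α_ (Am R (a + b)) R Y).inv := rfl
    have e2 : (U.θ (b + 1) Y).hom = (U.θ b (R ⊗ Y)).hom ≫ (α_ (Am R b) R Y).inv := rfl
    rw [QQ_succ, e1, catA_succ, comp_whiskerRight, e2, MonoidalCategory.whiskerLeft_comp,
      Category.assoc, h]
    exact (reassoc_of% h1) _

@[reassoc]
lemma oM_θ (b : ℕ) (Y : T) :
    (U.θ (b + 1) Y).hom = (oM U.cobar b Y).hom ≫ (R ◁ (U.θ b Y).hom) ≫
      (α_ R (Am R b) Y).inv ≫ ((consA R b).hom ▷ Y) := by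
  induction b generalizing Y with
  | zero =>
    have h : (λ_ (R ⊗ Y)).inv ≫ (α_ (𝟙_ T) R Y).inv = (R ◁ (λ_ Y).inv) ≫
        (α_ R (𝟙_ T) Y).inv ≫ (((ρ_ R).hom ≫ (λ_ R).inv) ▷ Y) := by monoidal
    rw [oM_zero, Iso.refl_hom]
    refine Eq.trans ?_ (Category.id_comp _).symm
    exact h
  | succ b ih =>
    have h : (R ◁ (α_ (Am R b) R Y).inv) ≫ (α_ R (Am R b ⊗ R) Y).inv ≫
        ((α_ R (Am R b) R).inv ▷ Y) ≫ (((consA R b).hom ▷ R) ▷ Y) =
        (α_ R (Am R b) (R ⊗ Y)).inv ≫ ((consA R b).hom ▷ (R ⊗ Y)) ≫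
          (α_ (Am R (b + 1)) R Y).inv := by
      monoidal
    have h1 := ih (R ⊗ Y)
    have e1 : (U.θ (b + 1 + 1) Y).hom = (U.θ (b + 1) (R ⊗ Y)).hom ≫
      (α_ (Am R (b + 1)) R Y).inv := rfl
    have e2 : (U.θ (b + 1) Y).hom = (U.θ b (R ⊗ Y)).hom ≫ (α_ (Am R b) R Y).inv := rfl
    have e3 : ((consA R (b + 1)).hom ▷ Y) = ((α_ R (Am R b) R).inv ▷ Y) ≫
      (((consA R b).hom ▷ R) ▷ Y) := by
      rw [consA_succ, Iso.trans_hom, Iso.symm_hom, whiskerRightIso_hom, comp_whiskerRight]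
    rw [e1, h1, e3, Category.assoc, Category.assoc, Category.assoc, ← h]
    have e4 : (R ◁ (U.θ (b + 1) Y).hom) = (R ◁ (U.θ b (R ⊗ Y)).hom) ≫
      (R ◁ (α_ (Am R b) R Y).inv) := by
      rw [← MonoidalCategory.whiskerLeft_comp]
      rfl
    rw [e4, Category.assoc]
    rfl

variable [IsCommMonObj R]

/-- The cup product in terms of the tensor powers of `R`. -/
@[reassoc]
theorem cupG_θ {b : ℕ} {Y' Y : T} (z : Y' ⟶ U.cobar.Q (b + 1) Y) (s : ℕ) :
    cupG U.cobar z s ≫ (U.θ (s + b + 1) Y).hom =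
      (U.θ (s + 1) Y').hom ≫ (Am R (s + 1) ◁ (z ≫ (U.θ (b + 1) Y).hom)) ≫
        (α_ (Am R (s + 1)) (Am R (b + 1)) Y).inv ≫ (conc R s b ▷ Y) := by
  have h1 : (R ◁ (z ≫ (oM U.cobar b Y).hom)) ≫ mulMap R (U.cobar.Q b Y) ≫
      (oM U.cobar b Y).inv ≫ (U.θ (b + 1) Y).hom =
      (R ◁ (z ≫ (U.θ (b + 1) Y).hom)) ≫ (α_ R (Am R (b + 1)) Y).inv ≫ (mulA R b ▷ Y) := by
    have h3 : mulMap R (U.cobar.Q b Y) ≫ (R ◁ (U.θ b Y).hom) =
      (R ◁ (R ◁ (U.θ b Y).hom)) ≫ mulMap R (Am R b ⊗ Y) := (mulMap_nat _).symm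
    have h4 : (α_ R (Am R b) Y).inv ≫ ((consA R b).hom ▷ Y) ≫ ((consA R b).inv ▷ Y) ≫
        (α_ R (Am R b) Y).hom = 𝟙 _ := by
      rw [← comp_whiskerRight_assoc, Iso.hom_inv_id, id_whiskerRight, Category.id_comp,
        Iso.inv_hom_id]
    have h5 : (oM U.cobar b Y).hom ≫ (R ◁ (U.θ b Y).hom) = (U.θ (b + 1) Y).hom ≫
        ((consA R b).inv ▷ Y) ≫ (α_ R (Am R b) Y).hom := by
      rw [oM_θ, Category.assoc, Category.assoc, Category.assoc, h4, Category.comp_id]
    have h6 : (oM U.cobar b Y).inv ≫ (U.θ (b + 1) Y).hom = (R ◁ (U.θ b Y).hom) ≫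
        (α_ R (Am R b) Y).inv ≫ ((consA R b).hom ▷ Y) := by
      rw [Iso.inv_comp_eq, oM_θ]
    have h8 : ∀ W : Y' ⟶ Am R (b + 1) ⊗ Y, (R ◁ (W ≫ ((consA R b).inv ▷ Y) ≫
        (α_ R (Am R b) Y).hom)) ≫ mulMap R (Am R b ⊗ Y) ≫ (α_ R (Am R b) Y).inv ≫
          ((consA R b).hom ▷ Y) = (R ◁ W) ≫ (α_ R (Am R (b + 1)) Y).inv ≫ (mulA R b ▷ Y) := by
      intro W
      rw [mulMap, mulA]
      simp only [MonoidalCategory.whiskerLeft_comp, Category.assoc, comp_whiskerRight]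
      monoidal
    rw [h6, reassoc_of% h3, ← MonoidalCategory.whiskerLeft_comp_assoc, Category.assoc, h5,
      ← h8 (z ≫ (U.θ (b + 1) Y).hom), Category.assoc]
  have h2 := QQ_θ U s (b + 1) Y
  have e1 : (U.θ (s + 1) Y').hom = (U.θ s (R ⊗ Y')).hom ≫ (α_ (Am R s) R Y').inv := rfl
  have h6 := U.θ_naturality s ((R ◁ (z ≫ (oM U.cobar b Y).hom)) ≫ mulMap R (U.cobar.Q b Y) ≫
      (oM U.cobar b Y).inv)
  have h7 : cupG U.cobar z s ≫ (U.θ (s + b + 1) Y).hom =
      U.cobar.Qm s ((R ◁ (z ≫ (oM U.cobar b Y).hom)) ≫ mulMap R (U.cobar.Q b Y) ≫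
      (oM U.cobar b Y).inv) ≫ (QQ U.cobar s (b + 1) Y).hom ≫ (U.θ (s + (b + 1)) Y).hom := by
    rw [cupG, Category.assoc]
    rfl
  rw [h7, h2, reassoc_of% h6, ← MonoidalCategory.whiskerLeft_comp_assoc, Category.assoc,
    Category.assoc, h1, e1, conc_eq]
  simp only [MonoidalCategory.whiskerLeft_comp, Category.assoc, comp_whiskerRight]
  monoidal

end

section ev

variable [HasCoproducts.{0} T] {K : CosR} {R : T} [MonObj R] [IsCommMonObj R] (E : RMod K R)

/-- The cup product of homogeneous elements. -/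
theorem evw_cup {a b : ℕ} {w v w' : ℤ} (h : w + v = w') (x : K.wt a w) (y : K.wt b v) :
    E.evw (a + b) w' (K.cupw h x y) =
      (stdEven T).ext h (E.evw a w x) (E.evw b v y) ≫ conc R a b := by
  rw [CosR.cupw, E.evw_mul, E.evw_map, E.evw_map, conc, descM, EvenSpheres.gmul,
    EvenSpheres.ext_comp, Category.assoc]

/-- The cup product of homogeneous elements, on `X`. -/
theorem evX_cup {X : T} (u : 𝟙_ T ⟶ X) {a b : ℕ} {w v w' : ℤ} (h : w + v = w')
    (x : K.wt a w) (y : K.wt b v) :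
    E.evX u (a + b) w' (K.cupw h x y) =
      (stdEven T).ext h (E.evw a w x) (E.evX u b v y) ≫
        (α_ (Am R (a + 1)) (Am R (b + 1)) X).inv ≫ (conc R a b ▷ X) := by
  rw [E.evX_apply, evw_cup, E.evX_apply, EvenSpheres.ext_comp_right, Category.assoc,
    Category.assoc, ← ux_nat]
  congr 1
  rw [ux, ux]
  simp only [MonoidalCategory.whiskerLeft_comp, Category.assoc]
  monoidal

end ev

end Vale.Agent.P257.V4.E
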