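import Vale.Agent.P257.V4.E.CupT
import Vale.Agent.P257.V4.E.Step

/-!
# P257, part E: products on the towers

`U : UnitCof R`, `m : X₁ ⊗ X₂ ⟶ X₃` a pairing.

* `tB U s Y W : B s Y ⊗ W ⟶ B s (Y ⊗ W)`, `tQ`;
* `xo U b m o : X₂ ⊗ S ⟶ B b X₃` for `o : S ⟶ B b X₁`: multiplication with `o`;
* `pE U h a x : S^{2w} ⟶ R ⊗ B (s+b) X₃` for `a : S^{2w₂} ⟶ R ⊗ B s X₂` and
  `x : X₂ ⊗ S^{2w₁} ⟶ B b X₃`: the product in `E_1` (the factor `x` on the inner side);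
* `RMod.qX u s w : K.wt s w →+ (S^{2w} ⟶ R ⊗ B s X)`: the class of `z ⊗ u` in `E_1`;
* `RMod.pE_xo` : the product of the classes of `α` and `ω` is the class of the cup product.
-/

open CategoryTheory MonoidalCategory Limits Pretriangulated MonObj

set_option linter.unusedSectionVars false

universe v u

namespace Vale.Agent.P257.V4.E

open Vale.Agent.P251.T Vale.Agent.P251.M Vale.Agent.P251.S

section tower

variable {T : Type u} [Category.{v} T] [Preadditive T] [HasZeroObject T] [HasShift T ℤ]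
  [∀ n : ℤ, (shiftFunctor T n).Additive] [Pretriangulated T] [MonoidalCategory T]
  [SymmetricCategory T] [TensorTriangulated T] {R : T} [MonObj R] (U : UnitCof R)

/-- `B s Y ⊗ W ⟶ B s (Y ⊗ W)` -/
def tB : ∀ (s : ℕ) (Y W : T), U.cobar.B s Y ⊗ W ⟶ U.cobar.B s (Y ⊗ W)
  | 0, _, _ => 𝟙 _
  | s + 1, Y, W => tB s (U.J ⊗ Y) W ≫ U.cobar.Bm s (α_ U.J Y W).hom

/-- `Q s Y ⊗ W ⟶ Q s (Y ⊗ W)` -/
def tQ : ∀ (s : ℕ) (Y W : T), U.cobar.Q s Y ⊗ W ⟶ U.cobar.Q s (Y ⊗ W)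
  | 0, _, _ => 𝟙 _
  | s + 1, Y, W => tQ s (R ⊗ Y) W ≫ U.cobar.Qm s (α_ R Y W).hom

theorem tB_succ (s : ℕ) (Y W : T) :
    tB U (s + 1) Y W = tB U s (U.J ⊗ Y) W ≫ U.cobar.Bm s (α_ U.J Y W).hom := rfl

theorem tQ_succ (s : ℕ) (Y W : T) :
    tQ U (s + 1) Y W = tQ U s (R ⊗ Y) W ≫ U.cobar.Qm s (α_ R Y W).hom := rfl

@[reassoc]
theorem tB_nat (s : ℕ) {Y Y' : T} (f : Y ⟶ Y') (W : T) :
    U.cobar.Bm s f ▷ W ≫ tB U s Y' W = tB U s Y W ≫ U.cobar.Bm s (f ▷ W) := by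
  induction s generalizing Y Y' with
  | zero => exact (Category.comp_id _).trans (Category.id_comp _).symm
  | succ s ih =>
    have h1 := ih (U.J ◁ f)
    rw [tB_succ, tB_succ, Category.assoc]
    change U.cobar.Bm s (U.J ◁ f) ▷ W ≫ _ = _ ≫ _ ≫ U.cobar.Bm s (U.J ◁ (f ▷ W))
    rw [reassoc_of% h1, ← CobarData.Bm_comp, ← CobarData.Bm_comp, associator_naturality_middle]

@[reassoc]
theorem tB_nat' (s : ℕ) (Y : T) {W W' : T} (g : W ⟶ W') :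
    U.cobar.B s Y ◁ g ≫ tB U s Y W' = tB U s Y W ≫ U.cobar.Bm s (Y ◁ g) := by
  induction s generalizing Y with
  | zero => exact (Category.comp_id _).trans (Category.id_comp _).symm
  | succ s ih =>
    have h1 := ih (U.J ⊗ Y)
    rw [tB_succ, tB_succ, Category.assoc]
    change U.cobar.B s (U.J ⊗ Y) ◁ g ≫ _ = _ ≫ _ ≫ U.cobar.Bm s (U.J ◁ (Y ◁ g))
    rw [reassoc_of% h1, ← CobarData.Bm_comp, ← CobarData.Bm_comp, associator_naturality_right]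

@[reassoc]
theorem tQ_nat (s : ℕ) {Y Y' : T} (f : Y ⟶ Y') (W : T) :
    U.cobar.Qm s f ▷ W ≫ tQ U s Y' W = tQ U s Y W ≫ U.cobar.Qm s (f ▷ W) := by
  induction s generalizing Y Y' with
  | zero => exact (Category.comp_id _).trans (Category.id_comp _).symm
  | succ s ih =>
    have h1 := ih (R ◁ f)
    rw [tQ_succ, tQ_succ, Category.assoc]
    change U.cobar.Qm s (R ◁ f) ▷ W ≫ _ = _ ≫ _ ≫ U.cobar.Qm s (R ◁ (f ▷ W))
    rw [reassoc_of% h1, ← CobarData.Qm_comp, ← CobarData.Qm_comp, associator_naturality_middle]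

@[reassoc]
theorem tQ_θ (n : ℕ) (Y W : T) :
    tQ U n Y W ≫ (U.θ n (Y ⊗ W)).hom = (U.θ n Y).hom ▷ W ≫ (α_ (Am R n) Y W).hom := by
  induction n generalizing Y with
  | zero =>
    change 𝟙 _ ≫ (λ_ (Y ⊗ W)).inv = (λ_ Y).inv ▷ W ≫ (α_ (𝟙_ T) Y W).hom
    simp
  | succ n ih =>
    have h1 := U.θ_naturality n (α_ R Y W).hom
    rw [tQ_succ, UnitCof.θ_succ, UnitCof.θ_succ, Iso.trans_hom, Iso.trans_hom, Category.assoc]
    change tQ U n (R ⊗ Y) W ≫ U.cobar.Qm n (α_ R Y W).hom ≫ (U.θ n (R ⊗ (Y ⊗ W))).hom ≫ _ = _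
    rw [reassoc_of% h1, reassoc_of% ih (R ⊗ Y)]
    simp

@[reassoc]
theorem q_tB (s : ℕ) (Y W : T) :
    U.cobar.q s Y ▷ W ≫ (α_ R (U.cobar.B s Y) W).hom ≫ R ◁ tB U s Y W =
      tQ U (s + 1) Y W ≫ U.cobar.q s (Y ⊗ W) := by
  induction s generalizing Y with
  | zero =>
    change 𝟙 (R ⊗ Y) ▷ W ≫ (α_ R Y W).hom ≫ R ◁ 𝟙 (Y ⊗ W) = (𝟙 _ ≫ (α_ R Y W).hom) ≫ 𝟙 _
    simp
  | succ s ih =>
    have h1 := ih (U.J ⊗ Y)
    have h2 : U.cobar.q (s + 1) Y = U.cobar.Qm (s + 1) (U.ρ ▷ Y) ≫ U.cobar.q s (U.J ⊗ Y) := rfl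
    have h3 : U.cobar.q (s + 1) (Y ⊗ W) = U.cobar.Qm (s + 1) (U.ρ ▷ (Y ⊗ W)) ≫
      U.cobar.q s (U.J ⊗ (Y ⊗ W)) := rfl
    have h4 := U.cobar.q_naturality s (α_ U.J Y W).hom
    have h5 := tQ_nat U (s + 1) (U.ρ ▷ Y) W
    rw [h2, h3, comp_whiskerRight, tB_succ, MonoidalCategory.whiskerLeft_comp]
    simp only [Category.assoc]
    have h6 : U.cobar.q s (U.J ⊗ Y) ▷ W ≫ (α_ R (U.cobar.B s (U.J ⊗ Y)) W).hom ≫
        R ◁ tB U s (U.J ⊗ Y) W ≫ R ◁ U.cobar.Bm s (α_ U.J Y W).hom =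
        tQ U (s + 1) (U.J ⊗ Y) W ≫ U.cobar.Qm (s + 1) (α_ U.J Y W).hom ≫
          U.cobar.q s (U.J ⊗ (Y ⊗ W)) := by
      rw [reassoc_of% h1]
      exact congrArg _ h4.symm
    refine (congrArg (U.cobar.Qm (s + 1) (U.ρ ▷ Y) ▷ W ≫ ·) h6).trans ?_
    rw [reassoc_of% h5, ← CobarData.Qm_comp_assoc, tQ_succ U (s + 1), Category.assoc]
    change _ = tQ U (s + 1) (R ⊗ Y) W ≫ U.cobar.Qm (s + 1) (α_ R Y W).hom ≫ _
    rw [← CobarData.Qm_comp_assoc, associator_naturality_left]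

@[reassoc]
theorem un_tB (s : ℕ) (Y W : T) :
    unitMap R (U.cobar.B s Y) ▷ W ≫ (α_ R (U.cobar.B s Y) W).hom ≫ R ◁ tB U s Y W =
      tB U s Y W ≫ unitMap R (U.cobar.B s (Y ⊗ W)) := by
  rw [unitMap_nat]
  have h1 : unitMap R (U.cobar.B s Y) ▷ W ≫ (α_ R (U.cobar.B s Y) W).hom =
      unitMap R (U.cobar.B s Y ⊗ W) := by
    unfold unitMap
    monoidal
  rw [reassoc_of% h1]

/-- Multiplication with `o : S ⟶ B b X₁`. -/
def xo (b : ℕ) {X₁ X₂ X₃ : T} (m : X₁ ⊗ X₂ ⟶ X₃) {S : T} (o : S ⟶ U.cobar.B b X₁) :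
    X₂ ⊗ S ⟶ U.cobar.B b X₃ :=
  (β_ X₂ S).hom ≫ o ▷ X₂ ≫ tB U b X₁ X₂ ≫ U.cobar.Bm b m

/-- Multiplication with a cochain. -/
def xz (b : ℕ) {X₁ X₂ X₃ : T} (m : X₁ ⊗ X₂ ⟶ X₃) {S : T} (z : S ⟶ U.cobar.Q (b + 1) X₁) :
    X₂ ⊗ S ⟶ U.cobar.Q (b + 1) X₃ :=
  (β_ X₂ S).hom ≫ z ▷ X₂ ≫ tQ U (b + 1) X₁ X₂ ≫ U.cobar.Qm (b + 1) m

theorem xz_q {b : ℕ} {X₁ X₂ X₃ : T} (m : X₁ ⊗ X₂ ⟶ X₃) {S : T} {z : S ⟶ U.cobar.Q (b + 1) X₁}
    {o : S ⟶ U.cobar.B b X₁} (h : z ≫ U.cobar.q b X₁ = o ≫ unitMap R (U.cobar.B b X₁)) :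
    xz U b m z ≫ U.cobar.q b X₃ = xo U b m o ≫ U.cobar.un (U.cobar.B b X₃) := by
  unfold xz xo
  simp only [Category.assoc]
  have h1 := U.cobar.q_naturality b m
  rw [h1]
  change _ ≫ _ ≫ _ ≫ _ ≫ R ◁ U.cobar.Bm b m = _ ≫ _ ≫ _ ≫ _ ≫ unitMap R (U.cobar.B b X₃)
  rw [unitMap_nat, ← un_tB_assoc, ← comp_whiskerRight_assoc, ← h, comp_whiskerRight_assoc,
    ← q_tB_assoc]

/-- multiplication with `o` extends `o` -/
theorem u_xo {b : ℕ} {X₁ X₂ : T} {u₂ : 𝟙_ T ⟶ X₂} (m : X₁ ⊗ X₂ ⟶ X₁) (hm : ux u₂ X₁ ≫ m = 𝟙 X₁)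
    {S : T} (o : S ⟶ U.cobar.B b X₁) : (λ_ S).inv ≫ u₂ ▷ S ≫ xo U b m o = o := by
  unfold xo
  rw [BraidedCategory.braiding_naturality_left_assoc, whisker_exchange_assoc, tB_nat'_assoc,
    ← CobarData.Bm_comp]
  have h1 : ∀ (s : ℕ) (Y : T), (ρ_ (U.cobar.B s Y)).inv ≫ tB U s Y (𝟙_ T) =
      U.cobar.Bm s (ρ_ Y).inv := by
    intro s
    induction s with
    | zero =>
      intro Y
      exact Category.comp_id _
    | succ s ih =>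
      intro Y
      rw [tB_succ]
      have h2 := ih (U.J ⊗ Y)
      change (ρ_ (U.cobar.B s (U.J ⊗ Y))).inv ≫ _ ≫ _ = U.cobar.Bm s (U.J ◁ (ρ_ Y).inv)
      rw [reassoc_of% h2, ← CobarData.Bm_comp]
      congr 1
      monoidal
  have h2 : (λ_ S).inv ≫ (β_ (𝟙_ T) S).hom ≫ o ▷ 𝟙_ T = o ≫ (ρ_ (U.cobar.B b X₁)).inv := by
    rw [braiding_tensorUnit_left]
    simp
  have h3 : (ρ_ X₁).inv ≫ X₁ ◁ u₂ ≫ m = 𝟙 _ := by
    rw [← hm]
    unfold ux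
    rw [Category.assoc]
  rw [reassoc_of% h2, reassoc_of% h1, ← CobarData.Bm_comp, h3, CobarData.Bm_id, Category.comp_id]

end tower

variable {T : Type u} [Category.{v} T] [Preadditive T] [HasZeroObject T]
    [HasShift T ℤ] [∀ n : ℤ, (shiftFunctor T n).Additive] [Pretriangulated T]
    [MonoidalCategory T] [SymmetricCategory T] [TensorTriangulated T]

section product

variable {R : T} [MonObj R] (U : UnitCof R)

/-- The product in `E_1`, with the homotopy class `x` on the inner side. -/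
noncomputable def pE {w₁ w₂ w : ℤ} (h : w₂ + w₁ = w) {s b : ℕ} {X₂ X₃ : T}
    (a : (stdEven T).S w₂ ⟶ R ⊗ U.cobar.B s X₂)
    (x : X₂ ⊗ (stdEven T).S w₁ ⟶ U.cobar.B b X₃) :
    (stdEven T).S w ⟶ R ⊗ U.cobar.B (s + b) X₃ :=
  ((stdEven T).mu w₂ w₁ w h).inv ≫ a ▷ (stdEven T).S w₁ ≫ (α_ _ _ _).hom ≫
    R ◁ (tB U s X₂ ((stdEven T).S w₁) ≫ U.cobar.Bm s x ≫ (BB U.cobar s b X₃).hom)

/-- The product of homotopy classes of the towers. -/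
noncomputable def pD {w₁ w₂ w : ℤ} (h : w₂ + w₁ = w) {s b : ℕ} {X₂ X₃ : T}
    (a : (stdEven T).S w₂ ⟶ U.cobar.B s X₂)
    (x : X₂ ⊗ (stdEven T).S w₁ ⟶ U.cobar.B b X₃) :
    (stdEven T).S w ⟶ U.cobar.B (s + b) X₃ :=
  ((stdEven T).mu w₂ w₁ w h).inv ≫ a ▷ (stdEven T).S w₁ ≫
    tB U s X₂ ((stdEven T).S w₁) ≫ U.cobar.Bm s x ≫ (BB U.cobar s b X₃).hom

theorem pE_unit {w₁ w₂ w : ℤ} (h : w₂ + w₁ = w) {s b : ℕ} {X₂ X₃ : T}
    (a : (stdEven T).S w₂ ⟶ U.cobar.B s X₂)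
    (x : X₂ ⊗ (stdEven T).S w₁ ⟶ U.cobar.B b X₃) :
    pE U h (a ≫ unitMap R _) x = pD U h a x ≫ unitMap R _ := by
  unfold pE pD
  simp only [comp_whiskerRight, Category.assoc, MonoidalCategory.whiskerLeft_comp]
  rw [un_tB_assoc, ← unitMap_nat_assoc, ← unitMap_nat]

theorem pE_nat {w₁ w₂ w : ℤ} (h : w₂ + w₁ = w) {s b : ℕ} {X₂ X₂' X₃ : T}
    (a : (stdEven T).S w₂ ⟶ R ⊗ U.cobar.B s X₂) (g : X₂ ⟶ X₂')
    (x : X₂' ⊗ (stdEven T).S w₁ ⟶ U.cobar.B b X₃) :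
    pE U h (a ≫ R ◁ U.cobar.Bm s g) x = pE U h a (g ▷ (stdEven T).S w₁ ≫ x) := by
  unfold pE
  rw [comp_whiskerRight, Category.assoc, associator_naturality_middle_assoc,
    ← MonoidalCategory.whiskerLeft_comp, tB_nat_assoc, ← CobarData.Bm_comp_assoc]

theorem pD_nat {w₁ w₂ w : ℤ} (h : w₂ + w₁ = w) {s b : ℕ} {X₂ X₂' X₃ : T}
    (a : (stdEven T).S w₂ ⟶ U.cobar.B s X₂) (g : X₂ ⟶ X₂')
    (x : X₂' ⊗ (stdEven T).S w₁ ⟶ U.cobar.B b X₃) :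
    pD U h (a ≫ U.cobar.Bm s g) x = pD U h a (g ▷ (stdEven T).S w₁ ≫ x) := by
  unfold pD
  rw [comp_whiskerRight, Category.assoc, tB_nat_assoc, ← CobarData.Bm_comp_assoc]

end product

variable [HasCoproducts.{0} T]

namespace RMod

variable {K : CosR} {R : T} [MonObj R] [IsCommMonObj R] (E : RMod K R) (U : UnitCof R)

/-- The cochain of `z ⊗ u`. -/
noncomputable def cX {X : T} (u : 𝟙_ T ⟶ X) (s : ℕ) (w : ℤ) :
    K.wt s w →+ ((stdEven T).S w ⟶ U.cobar.Q (s + 1) X) :=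
  AddMonoidHom.mk' (fun z => E.evX u s w z ≫ (U.θ (s + 1) X).inv) fun z z' => by
    rw [map_add, Preadditive.add_comp]

theorem cX_apply {X : T} (u : 𝟙_ T ⟶ X) (s : ℕ) (w : ℤ) (z : K.wt s w) :
    E.cX U u s w z = E.evX u s w z ≫ (U.θ (s + 1) X).inv := rfl

/-- The class of `z ⊗ u` in `E_1`. -/
noncomputable def qX {X : T} (u : 𝟙_ T ⟶ X) (s : ℕ) (w : ℤ) :
    K.wt s w →+ ((stdEven T).S w ⟶ R ⊗ U.cobar.B s X) :=
  AddMonoidHom.mk' (fun z => E.cX U u s w z ≫ U.cobar.q s X) fun z z' => by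
    rw [map_add, Preadditive.add_comp]

theorem qX_apply {X : T} (u : 𝟙_ T ⟶ X) (s : ℕ) (w : ℤ) (z : K.wt s w) :
    E.qX U u s w z = E.cX U u s w z ≫ U.cobar.q s X := rfl

/-- `cX` is a morphism of complexes. -/
theorem cX_d {X : T} (u : 𝟙_ T ⟶ X) (s : ℕ) (w : ℤ) (z : K.wt s w) :
    E.cX U u (s + 1) w (K.d s w z) = E.cX U u s w z ≫ U.cobar.d (s + 1) X := by
  rw [cX_apply, cX_apply, Iso.comp_inv_eq, Category.assoc, Category.assoc, U.d_θ,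
    Iso.inv_hom_id_assoc, evX_d]

/-- `qX` is a morphism of complexes. -/
theorem qX_d {X : T} (u : 𝟙_ T ⟶ X) (s : ℕ) (w : ℤ) (z : K.wt s w) :
    E.qX U u (s + 1) w (K.d s w z) = E.qX U u s w z ≫ U.cobar.D s X := by
  rw [qX_apply, qX_apply, cX_d, Category.assoc, Category.assoc, CobarData.d_q]

theorem cX_nat {X X' : T} (u : 𝟙_ T ⟶ X) (g : X ⟶ X') (s : ℕ) (w : ℤ) (z : K.wt s w) :
    E.cX U u s w z ≫ U.cobar.Qm (s + 1) g = E.cX U (u ≫ g) s w z := by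
  rw [cX_apply, cX_apply, ← evX_comp, Category.assoc, ← cancel_mono (U.θ (s + 1) X').hom]
  have h1 := U.θ_naturality (s + 1) g
  simp only [Category.assoc]
  rw [h1, Iso.inv_hom_id_assoc, Iso.inv_hom_id, Category.comp_id]

theorem qX_nat {X X' : T} (u : 𝟙_ T ⟶ X) (g : X ⟶ X') (s : ℕ) (w : ℤ) (z : K.wt s w) :
    E.qX U u s w z ≫ R ◁ U.cobar.Bm s g = E.qX U (u ≫ g) s w z := by
  have h1 := U.cobar.q_naturality s g
  rw [qX_apply, qX_apply, ← cX_nat, Category.assoc, Category.assoc]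
  exact congrArg _ h1.symm

/-- the cup product of cochains -/
theorem cX_cup {X₁ X₂ X₃ : T} {u₁ : 𝟙_ T ⟶ X₁} {u₂ : 𝟙_ T ⟶ X₂} {u₃ : 𝟙_ T ⟶ X₃}
    (m : X₁ ⊗ X₂ ⟶ X₃) (hm : u₁ ≫ ux u₂ X₁ ≫ m = u₃) {w₁ w₂ w : ℤ} (h : w₂ + w₁ = w) {s b : ℕ}
    (a : K.wt s w₂) (z : K.wt b w₁) :
    E.cX U u₃ (s + b) w (K.cupw h a z) =
      ((stdEven T).mu w₂ w₁ w h).inv ≫ E.cX U u₂ s w₂ a ▷ (stdEven T).S w₁ ≫
        tQ U (s + 1) X₂ ((stdEven T).S w₁) ≫ cupG U.cobar (xz U b m (E.cX U u₁ b w₁ z)) s := by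
  -- the cochain `z`
  have hz : (λ_ ((stdEven T).S w₁)).inv ≫ u₂ ▷ (stdEven T).S w₁ ≫
      xz U b m (E.cX U u₁ b w₁ z) ≫ (U.θ (b + 1) X₃).hom = E.evw b w₁ z ≫ ux u₃ _ := by
    have h1 := U.θ_naturality (b + 1) m
    unfold xz
    simp only [Category.assoc]
    rw [h1, tQ_θ_assoc, ← comp_whiskerRight_assoc _ (U.θ (b + 1) X₁).hom, cX_apply,
      Category.assoc, Iso.inv_hom_id, Category.comp_id,
      BraidedCategory.braiding_naturality_left_assoc, whisker_exchange_assoc,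
      braiding_tensorUnit_left, evX_apply]
    simp only [Category.assoc, Iso.inv_hom_id_assoc]
    rw [← rightUnitor_inv_naturality_assoc]
    have h2 : ux u₁ (Am R (b + 1)) ≫ (ρ_ _).inv ≫ (Am R (b + 1) ⊗ X₁) ◁ u₂ ≫
        (α_ _ _ _).hom ≫ Am R (b + 1) ◁ m = ux u₃ (Am R (b + 1)) := by
      rw [← hm, ← ux_comp]
      unfold ux
      monoidal
    simp only [Category.assoc] at h2 ⊢
    rw [h2]
  have hc : (stdEven T).ext h (E.evw s w₂ a) (E.evw b w₁ z) ≫ conc R s b =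
      E.evw (s + b) w (K.cupw h a z) := (evw_cup E h a z).symm
  rw [← cancel_mono (U.θ (s + b + 1) X₃).hom]
  simp only [Category.assoc]
  rw [cX_apply, Category.assoc, Iso.inv_hom_id, Category.comp_id, cupG_θ, tQ_θ_assoc,
    ← comp_whiskerRight_assoc _ (U.θ (s + 1) X₂).hom, cX_apply, Category.assoc, Iso.inv_hom_id,
    Category.comp_id, evX_apply, evX_apply, ← hc, comp_whiskerRight, Category.assoc,
    Category.assoc, reassoc_of% (ux_tensor u₂ (Am R (s + 1)) ((stdEven T).S w₁)),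
    ← MonoidalCategory.whiskerLeft_comp_assoc, Category.assoc, hz,
    MonoidalCategory.whiskerLeft_comp_assoc, reassoc_of% (whiskerLeft_ux u₃ (Am R (s + 1))
      (Am R (b + 1))), ux_nat, EvenSpheres.ext, tensorHom_def]
  simp only [Category.assoc]

/-- **The product of the classes of `a` and `z` in `E_1` is the class of the cup product**, if
the class of `z` is a homotopy class `o`. -/
theorem pE_xo {X₁ X₂ X₃ : T} {u₁ : 𝟙_ T ⟶ X₁} {u₂ : 𝟙_ T ⟶ X₂} {u₃ : 𝟙_ T ⟶ X₃}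
    (m : X₁ ⊗ X₂ ⟶ X₃) (hm : u₁ ≫ ux u₂ X₁ ≫ m = u₃) {w₁ w₂ w : ℤ} (h : w₂ + w₁ = w) {s b : ℕ}
    (a : K.wt s w₂) (z : K.wt b w₁) {o : (stdEven T).S w₁ ⟶ U.cobar.B b X₁}
    (ho : E.qX U u₁ b w₁ z = o ≫ unitMap R _) :
    pE U h (E.qX U u₂ s w₂ a) (xo U b m o) = E.qX U u₃ (s + b) w (K.cupw h a z) := by
  have h1 := cupG_q U.cobar _ _ (xz_q U m (z := E.cX U u₁ b w₁ z) ho) s
  have h2 := q_tB U s X₂ ((stdEven T).S w₁)
  rw [qX_apply, qX_apply, cX_cup E U m hm h a z, pE]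
  simp only [Category.assoc, comp_whiskerRight, MonoidalCategory.whiskerLeft_comp]
  rw [h1, reassoc_of% h2]

end RMod

end Vale.Agent.P257.V4.E
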