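import Vale.Agent.P257.V4.E.CupX

/-!
# P257, part E: tensoring the cobar complex and the tower on the right

Isomorphisms `τQ W s Y : Q s Y ⊗ W ≅ Q s (Y ⊗ W)`, `τB W s Y : B s Y ⊗ W ≅ B s (Y ⊗ W)` and
`τM W s Y : (R ⊗ B s Y) ⊗ W ≅ R ⊗ B s (Y ⊗ W)`, natural in `Y` and `W` and compatible with `θ`,
`d`, `q`, `k`, the units and the connecting maps of the tower (no sign). `(τB U W s Y).hom = tB U s Y W`.
In terms of `tB`: `k_tB`, `bd_tB`, `tB_BB`.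
-/

set_option linter.unusedSectionVars false

open CategoryTheory MonoidalCategory Limits Pretriangulated MonObj

universe v u

namespace Vale.Agent.P257.V4.E

open Vale.Agent.P251.T Vale.Agent.P251.S

variable {T : Type u} [Category.{v} T] [Preadditive T] [HasZeroObject T] [HasShift T ℤ]
  [∀ n : ℤ, (shiftFunctor T n).Additive] [Pretriangulated T] [MonoidalCategory T]
  [SymmetricCategory T] [TensorTriangulated T]

/-- `(Y⟦1⟧) ⊗ W ≅ (Y ⊗ W)⟦1⟧` -/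
noncomputable def shR (Y W : T) : (Y⟦(1 : ℤ)⟧) ⊗ W ≅ (Y ⊗ W)⟦(1 : ℤ)⟧ :=
  ((tensorRight W).commShiftIso (1 : ℤ)).app Y

lemma shR_hom (Y W : T) : (shR Y W).hom = (β_ (Y⟦(1 : ℤ)⟧) W).hom ≫
    ((W ◁ (TensorTriangulated.e Y).inv) ≫ (α_ W Y ((𝟙_ T)⟦(1 : ℤ)⟧)).inv ≫
      (TensorTriangulated.e (W ⊗ Y)).hom) ≫ ((β_ W Y).hom)⟦(1 : ℤ)⟧' := by
  have h := NatTrans.shift_app_comm (BraidedCategory.tensorLeftIsoTensorRight W).hom (1 : ℤ) Y
  rw [tensorLeft_commShiftIso_one_app] at h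
  change ((W ◁ (TensorTriangulated.e Y).inv) ≫ (α_ W Y ((𝟙_ T)⟦(1 : ℤ)⟧)).inv ≫
      (TensorTriangulated.e (W ⊗ Y)).hom) ≫ ((β_ W Y).hom)⟦(1 : ℤ)⟧' =
    (β_ W (Y⟦(1 : ℤ)⟧)).hom ≫ (shR Y W).hom at h
  rw [h, SymmetricCategory.symmetry_assoc]

@[reassoc]
lemma shR_nat {X Y : T} (f : X ⟶ Y) (W : T) :
    (f⟦(1 : ℤ)⟧' ▷ W) ≫ (shR Y W).hom = (shR X W).hom ≫ (f ▷ W)⟦(1 : ℤ)⟧' :=
  ((tensorRight W).commShiftIso (1 : ℤ)).hom.naturality f

@[reassoc]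
lemma sOne_shR (Y W : T) : (sOne Y ▷ W) ≫ (shR Y W).hom =
    (α_ ((𝟙_ T)⟦(1 : ℤ)⟧) Y W).hom ≫ sOne (Y ⊗ W) := by
  have h1 : ((TensorTriangulated.e Y).hom ▷ W) ≫ (β_ (Y⟦(1 : ℤ)⟧) W).hom =
      (β_ (Y ⊗ (𝟙_ T)⟦(1 : ℤ)⟧) W).hom ≫ (W ◁ (TensorTriangulated.e Y).hom) :=
    BraidedCategory.braiding_naturality_left _ _
  have h2 : (W ◁ (TensorTriangulated.e Y).hom) ≫ (W ◁ (TensorTriangulated.e Y).inv) = 𝟙 _ := by
    rw [← MonoidalCategory.whiskerLeft_comp, Iso.hom_inv_id, MonoidalCategory.whiskerLeft_id]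
  have h3 : (TensorTriangulated.e (W ⊗ Y)).hom ≫ ((β_ W Y).hom)⟦(1 : ℤ)⟧' =
      ((β_ W Y).hom ▷ ((𝟙_ T)⟦(1 : ℤ)⟧)) ≫ (TensorTriangulated.e (Y ⊗ W)).hom :=
    (TensorTriangulated.e_naturality _).symm
  rw [shR_hom, sOne, sOne, comp_whiskerRight, Category.assoc, Category.assoc, Category.assoc,
    reassoc_of% h1, reassoc_of% h2, h3, BraidedCategory.braiding_tensor_left_hom,
    BraidedCategory.braiding_tensor_right_hom]
  simp only [Category.assoc, Iso.hom_inv_id_assoc]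
  rw [← comp_whiskerRight_assoc, SymmetricCategory.symmetry, id_whiskerRight, Category.id_comp]

variable {R : T} [MonObj R] (U : UnitCof R)

lemma bdry_tenR (Y W : T) : (U.bdry Y ▷ W) ≫ (shR Y W).hom =
    (α_ U.J Y W).hom ≫ U.bdry (Y ⊗ W) := by
  rw [U.bdry_eq, U.bdry_eq, comp_whiskerRight, Category.assoc, sOne_shR,
    associator_naturality_left_assoc]

/-- `Qm` on isomorphisms. -/
def QmI (K : CobarData T) (s : ℕ) {X Y : T} (e : X ≅ Y) : K.Q s X ≅ K.Q s Y where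
  hom := K.Qm s e.hom
  inv := K.Qm s e.inv
  hom_inv_id := by rw [← CobarData.Qm_comp, Iso.hom_inv_id, CobarData.Qm_id]
  inv_hom_id := by rw [← CobarData.Qm_comp, Iso.inv_hom_id, CobarData.Qm_id]

/-- `Bm` on isomorphisms. -/
def BmI (K : CobarData T) (s : ℕ) {X Y : T} (e : X ≅ Y) : K.B s X ≅ K.B s Y where
  hom := K.Bm s e.hom
  inv := K.Bm s e.inv
  hom_inv_id := by rw [← CobarData.Bm_comp, Iso.hom_inv_id, CobarData.Bm_id]
  inv_hom_id := by rw [← CobarData.Bm_comp, Iso.inv_hom_id, CobarData.Bm_id]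

/-- `Q s Y ⊗ W ≅ Q s (Y ⊗ W)` -/
def τQ (W : T) : ∀ (s : ℕ) (Y : T), U.cobar.Q s Y ⊗ W ≅ U.cobar.Q s (Y ⊗ W)
  | 0, _ => Iso.refl _
  | s + 1, Y => τQ W s (R ⊗ Y) ≪≫ QmI U.cobar s (α_ R Y W)

lemma τQ_zero (W Y : T) : τQ U W 0 Y = Iso.refl _ := rfl

lemma τQ_succ (W : T) (s : ℕ) (Y : T) :
    τQ U W (s + 1) Y = τQ U W s (R ⊗ Y) ≪≫ QmI U.cobar s (α_ R Y W) := rfl

/-- `B s Y ⊗ W ≅ B s (Y ⊗ W)` -/
def τB (W : T) : ∀ (s : ℕ) (Y : T), U.cobar.B s Y ⊗ W ≅ U.cobar.B s (Y ⊗ W)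
  | 0, _ => Iso.refl _
  | s + 1, Y => τB W s (U.J ⊗ Y) ≪≫ BmI U.cobar s (α_ U.J Y W)

lemma τB_zero (W Y : T) : τB U W 0 Y = Iso.refl _ := rfl

lemma τB_succ (W : T) (s : ℕ) (Y : T) :
    τB U W (s + 1) Y = τB U W s (U.J ⊗ Y) ≪≫ BmI U.cobar s (α_ U.J Y W) := rfl

@[reassoc]
lemma τQ_nat (W : T) (s : ℕ) {X Y : T} (f : X ⟶ Y) :
    (U.cobar.Qm s f ▷ W) ≫ (τQ U W s Y).hom = (τQ U W s X).hom ≫ U.cobar.Qm s (f ▷ W) := by
  induction s generalizing X Y with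
  | zero => exact (Category.comp_id _).trans (Category.id_comp _).symm
  | succ s ih =>
    have h := ih (R ◁ f)
    have h2 : U.cobar.Qm s ((R ◁ f) ▷ W) ≫ U.cobar.Qm s (α_ R Y W).hom =
        U.cobar.Qm s (α_ R X W).hom ≫ U.cobar.Qm (s + 1) (f ▷ W) := by
      rw [← CobarData.Qm_comp, associator_naturality_middle, CobarData.Qm_comp]
      rfl
    rw [τQ_succ, τQ_succ, Iso.trans_hom, Iso.trans_hom, Category.assoc]
    refine ((reassoc_of% h) _).trans ?_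
    exact congrArg _ h2

@[reassoc]
lemma τB_nat (W : T) (s : ℕ) {X Y : T} (f : X ⟶ Y) :
    (U.cobar.Bm s f ▷ W) ≫ (τB U W s Y).hom = (τB U W s X).hom ≫ U.cobar.Bm s (f ▷ W) := by
  induction s generalizing X Y with
  | zero => exact (Category.comp_id _).trans (Category.id_comp _).symm
  | succ s ih =>
    have h := ih (U.J ◁ f)
    have h2 : U.cobar.Bm s ((U.J ◁ f) ▷ W) ≫ U.cobar.Bm s (α_ U.J Y W).hom =
        U.cobar.Bm s (α_ U.J X W).hom ≫ U.cobar.Bm (s + 1) (f ▷ W) := by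
      rw [← CobarData.Bm_comp, associator_naturality_middle, CobarData.Bm_comp]
      rfl
    rw [τB_succ, τB_succ, Iso.trans_hom, Iso.trans_hom, Category.assoc]
    refine ((reassoc_of% h) _).trans ?_
    exact congrArg _ h2

/-- Naturality in `W`. -/
@[reassoc]
lemma τQ_natW {W W' : T} (g : W ⟶ W') (s : ℕ) (Y : T) :
    (U.cobar.Q s Y ◁ g) ≫ (τQ U W' s Y).hom = (τQ U W s Y).hom ≫ U.cobar.Qm s (Y ◁ g) := by
  induction s generalizing Y with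
  | zero => exact (Category.comp_id _).trans (Category.id_comp _).symm
  | succ s ih =>
    have h := ih (R ⊗ Y)
    have h2 : U.cobar.Qm s ((R ⊗ Y) ◁ g) ≫ U.cobar.Qm s (α_ R Y W').hom =
        U.cobar.Qm s (α_ R Y W).hom ≫ U.cobar.Qm (s + 1) (Y ◁ g) := by
      rw [← CobarData.Qm_comp, associator_naturality_right, CobarData.Qm_comp]
      rfl
    rw [τQ_succ, τQ_succ, Iso.trans_hom, Iso.trans_hom, Category.assoc]
    refine ((reassoc_of% h) _).trans ?_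
    exact congrArg _ h2

/-- Naturality in `W`. -/
@[reassoc]
lemma τB_natW {W W' : T} (g : W ⟶ W') (s : ℕ) (Y : T) :
    (U.cobar.B s Y ◁ g) ≫ (τB U W' s Y).hom = (τB U W s Y).hom ≫ U.cobar.Bm s (Y ◁ g) := by
  induction s generalizing Y with
  | zero => exact (Category.comp_id _).trans (Category.id_comp _).symm
  | succ s ih =>
    have h := ih (U.J ⊗ Y)
    have h2 : U.cobar.Bm s ((U.J ⊗ Y) ◁ g) ≫ U.cobar.Bm s (α_ U.J Y W').hom =
        U.cobar.Bm s (α_ U.J Y W).hom ≫ U.cobar.Bm (s + 1) (Y ◁ g) := by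
      rw [← CobarData.Bm_comp, associator_naturality_right, CobarData.Bm_comp]
      rfl
    rw [τB_succ, τB_succ, Iso.trans_hom, Iso.trans_hom, Category.assoc]
    refine ((reassoc_of% h) _).trans ?_
    exact congrArg _ h2

/-- `(R ⊗ B s Y) ⊗ W ≅ R ⊗ B s (Y ⊗ W)` -/
def τM (W : T) (s : ℕ) (Y : T) :
    (R ⊗ U.cobar.B s Y) ⊗ W ≅ R ⊗ U.cobar.B s (Y ⊗ W) :=
  α_ R (U.cobar.B s Y) W ≪≫ whiskerLeftIso R (τB U W s Y)

lemma τM_hom (W : T) (s : ℕ) (Y : T) :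
    (τM U W s Y).hom = (α_ R (U.cobar.B s Y) W).hom ≫ (R ◁ (τB U W s Y).hom) := rfl

@[reassoc]
lemma τM_nat (W : T) (s : ℕ) {X Y : T} (f : X ⟶ Y) :
    ((R ◁ U.cobar.Bm s f) ▷ W) ≫ (τM U W s Y).hom =
      (τM U W s X).hom ≫ (R ◁ U.cobar.Bm s (f ▷ W)) := by
  rw [τM_hom, τM_hom, associator_naturality_middle_assoc, Category.assoc,
    ← MonoidalCategory.whiskerLeft_comp, ← MonoidalCategory.whiskerLeft_comp, τB_nat]

@[reassoc]
lemma unitMap_τM (W : T) (s : ℕ) (Y : T) :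
    (unitMap R (U.cobar.B s Y) ▷ W) ≫ (τM U W s Y).hom =
      (τB U W s Y).hom ≫ unitMap R (U.cobar.B s (Y ⊗ W)) := by
  rw [unitMap_nat, τM_hom, unitMap, unitMap, comp_whiskerRight, Category.assoc,
    associator_naturality_left_assoc]
  simp

/-- Compatibility with the projections `q`. -/
@[reassoc]
lemma τQ_q (W : T) (s : ℕ) (Y : T) :
    (τQ U W (s + 1) Y).hom ≫ U.cobar.q s (Y ⊗ W) =
      (U.cobar.q s Y ▷ W) ≫ (τM U W s Y).hom := by
  induction s generalizing Y with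
  | zero =>
    have h : (τQ U W 1 Y).hom = (α_ R Y W).hom := Category.id_comp _
    have h2 : (τM U W 0 Y).hom = (α_ R Y W).hom := by
      rw [τM_hom, τB_zero, Iso.refl_hom, MonoidalCategory.whiskerLeft_id]
      exact Category.comp_id _
    have h3 : U.cobar.q 0 Y ▷ W = 𝟙 _ := id_whiskerRight _ _
    rw [h, h2, h3]
    exact (Category.comp_id _).trans (Category.id_comp _).symm
  | succ s ih =>
    have h1 := τQ_nat U W (s + 1) (U.ρ ▷ Y)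
    have h2 : U.cobar.Qm (s + 1) (α_ R Y W).hom ≫ U.cobar.Qm (s + 1) (U.ρ ▷ (Y ⊗ W)) =
        U.cobar.Qm (s + 1) ((U.ρ ▷ Y) ▷ W) ≫ U.cobar.Qm (s + 1) (α_ U.J Y W).hom := by
      rw [← CobarData.Qm_comp, ← CobarData.Qm_comp, associator_naturality_left]
    have h3 := U.cobar.q_naturality s (α_ U.J Y W).hom
    calc _ = (τQ U W (s + 1) (R ⊗ Y)).hom ≫ (U.cobar.Qm (s + 1) (α_ R Y W).hom ≫
          U.cobar.Qm (s + 1) (U.ρ ▷ (Y ⊗ W))) ≫ U.cobar.q s (U.J ⊗ (Y ⊗ W)) := by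
          rw [τQ_succ, Iso.trans_hom, CobarData.q_succ, Category.assoc, Category.assoc]
          rfl
      _ = (U.cobar.Qm (s + 1) (U.ρ ▷ Y) ▷ W) ≫ (τQ U W (s + 1) (U.J ⊗ Y)).hom ≫
          U.cobar.q s ((U.J ⊗ Y) ⊗ W) ≫ (R ◁ U.cobar.Bm s (α_ U.J Y W).hom) := by
          rw [h2, Category.assoc]
          refine (reassoc_of% h1) _ |>.symm.trans ?_
          exact congrArg _ (congrArg _ h3)
      _ = (U.cobar.Qm (s + 1) (U.ρ ▷ Y) ▷ W) ≫ (U.cobar.q s (U.J ⊗ Y) ▷ W) ≫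
          (τM U W s (U.J ⊗ Y)).hom ≫ (R ◁ U.cobar.Bm s (α_ U.J Y W).hom) := by
          rw [reassoc_of% ih (U.J ⊗ Y)]
      _ = _ := by
          rw [CobarData.q_succ, comp_whiskerRight, Category.assoc, τM_hom, τM_hom, Category.assoc,
            ← MonoidalCategory.whiskerLeft_comp]
          rfl

/-- Compatibility with the maps `k` of the tower. -/
@[reassoc]
lemma k_τ (W : T) (s : ℕ) (Y : T) :
    (U.cobar.k s Y ▷ W) ≫ (τB U W (s + 1) Y).hom =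
      (τM U W s Y).hom ≫ U.cobar.k s (Y ⊗ W) := by
  induction s generalizing Y with
  | zero =>
    have h : (τB U W 1 Y).hom = (α_ U.J Y W).hom := Category.id_comp _
    have h2 : (τM U W 0 Y).hom = (α_ R Y W).hom := by
      rw [τM_hom, τB_zero, Iso.refl_hom, MonoidalCategory.whiskerLeft_id]
      exact Category.comp_id _
    rw [h, h2]
    exact associator_naturality_left _ _ _
  | succ s ih =>
    have h1 := ih (U.J ⊗ Y)
    have h2 := U.cobar.k_naturality s (α_ U.J Y W).hom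
    calc _ = (U.cobar.k s (U.J ⊗ Y) ▷ W) ≫ (τB U W (s + 1) (U.J ⊗ Y)).hom ≫
          U.cobar.Bm (s + 1) (α_ U.J Y W).hom := rfl
      _ = (τM U W s (U.J ⊗ Y)).hom ≫ U.cobar.k s ((U.J ⊗ Y) ⊗ W) ≫
          U.cobar.Bm (s + 1) (α_ U.J Y W).hom := (reassoc_of% h1) _
      _ = (τM U W s (U.J ⊗ Y)).hom ≫ (R ◁ U.cobar.Bm s (α_ U.J Y W).hom) ≫
          U.cobar.k s (U.J ⊗ (Y ⊗ W)) := congrArg _ h2.symm
      _ = (α_ R (U.cobar.B s (U.J ⊗ Y)) W).hom ≫ (R ◁ (τB U W (s + 1) Y).hom) ≫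
          U.cobar.k s (U.J ⊗ (Y ⊗ W)) := by
          rw [τM_hom, Category.assoc, ← MonoidalCategory.whiskerLeft_comp_assoc]
          rfl
      _ = _ := (Category.assoc _ _ _).symm

/-- Compatibility with the connecting maps of the tower. -/
@[reassoc]
lemma bd_τ (W : T) (s : ℕ) (Y : T) :
    (U.bd s Y ▷ W) ≫ (shR (U.cobar.B s Y) W).hom ≫ ((τB U W s Y).hom)⟦(1 : ℤ)⟧' =
      (τB U W (s + 1) Y).hom ≫ U.bd s (Y ⊗ W) := by
  induction s generalizing Y with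
  | zero =>
    have h : (τB U W 1 Y).hom = (α_ U.J Y W).hom := Category.id_comp _
    have h1 : ((τB U W 0 Y).hom)⟦(1 : ℤ)⟧' = 𝟙 _ := CategoryTheory.Functor.map_id _ _
    rw [h, h1]
    refine (congrArg _ (Category.comp_id _)).trans ?_
    exact bdry_tenR U Y W
  | succ s ih =>
    have h1 := ih (U.J ⊗ Y)
    have h2 := U.bd_naturality s (α_ U.J Y W).hom
    calc _ = ((U.bd s (U.J ⊗ Y) ▷ W) ≫ (shR (U.cobar.B s (U.J ⊗ Y)) W).hom ≫
          ((τB U W s (U.J ⊗ Y)).hom)⟦(1 : ℤ)⟧') ≫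
            (U.cobar.Bm s (α_ U.J Y W).hom)⟦(1 : ℤ)⟧' := by
          rw [τB_succ, Iso.trans_hom, Functor.map_comp]
          simp only [Category.assoc]
          rfl
      _ = (τB U W (s + 1) (U.J ⊗ Y)).hom ≫ U.bd s ((U.J ⊗ Y) ⊗ W) ≫
            (U.cobar.Bm s (α_ U.J Y W).hom)⟦(1 : ℤ)⟧' := by
          rw [h1, Category.assoc]
      _ = (τB U W (s + 1) (U.J ⊗ Y)).hom ≫ U.cobar.Bm (s + 1) (α_ U.J Y W).hom ≫
            U.bd s (U.J ⊗ (Y ⊗ W)) := by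
          rw [← h2]
      _ = _ := (Category.assoc _ _ _).symm

/-- Compatibility with `θ`. -/
@[reassoc]
lemma τQ_θ (W : T) (s : ℕ) (Y : T) :
    (τQ U W s Y).hom ≫ (U.θ s (Y ⊗ W)).hom =
      ((U.θ s Y).hom ▷ W) ≫ (α_ (Am R s) Y W).hom := by
  induction s generalizing Y with
  | zero =>
    have h : (λ_ (Y ⊗ W)).inv = ((λ_ Y).inv ▷ W) ≫ (α_ (𝟙_ T) Y W).hom := by monoidal
    exact (Category.id_comp _).trans h
  | succ s ih =>
    have h1 := ih (R ⊗ Y)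
    have h2 := U.θ_naturality s (α_ R Y W).hom
    have h3 : (α_ (Am R s) (R ⊗ Y) W).hom ≫ (Am R s ◁ (α_ R Y W).hom) ≫
        (α_ (Am R s) R (Y ⊗ W)).inv = ((α_ (Am R s) R Y).inv ▷ W) ≫
          (α_ (Am R s ⊗ R) Y W).hom := by monoidal
    calc _ = (τQ U W s (R ⊗ Y)).hom ≫ (U.cobar.Qm s (α_ R Y W).hom ≫
          (U.θ s (R ⊗ (Y ⊗ W))).hom) ≫ (α_ (Am R s) R (Y ⊗ W)).inv := by
          rw [τQ_succ, Iso.trans_hom, U.θ_succ, Iso.trans_hom, Category.assoc, Category.assoc]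
          rfl
      _ = ((τQ U W s (R ⊗ Y)).hom ≫ (U.θ s ((R ⊗ Y) ⊗ W)).hom) ≫
          (Am R s ◁ (α_ R Y W).hom) ≫ (α_ (Am R s) R (Y ⊗ W)).inv := by
          rw [h2]
          simp only [Category.assoc]
      _ = _ := by
          rw [h1, U.θ_succ, Iso.trans_hom, comp_whiskerRight, Category.assoc, Category.assoc,
            Iso.symm_hom, h3]

lemma τB_hom (W : T) (s : ℕ) (Y : T) : (τB U W s Y).hom = tB U s Y W := by
  induction s generalizing Y with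
  | zero => rfl
  | succ s ih =>
    rw [τB_succ, tB_succ, Iso.trans_hom, ih]
    rfl

lemma τQ_hom (W : T) (s : ℕ) (Y : T) : (τQ U W s Y).hom = tQ U s Y W := by
  induction s generalizing Y with
  | zero => rfl
  | succ s ih =>
    rw [τQ_succ, tQ_succ, Iso.trans_hom, ih]
    rfl

instance isIso_tB (s : ℕ) (Y W : T) : IsIso (tB U s Y W) := by
  rw [← τB_hom]
  infer_instance

instance isIso_tQ (s : ℕ) (Y W : T) : IsIso (tQ U s Y W) := by
  rw [← τQ_hom]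
  infer_instance

/-- Compatibility with the maps `k` of the tower. -/
@[reassoc]
theorem k_tB (s : ℕ) (Y W : T) :
    (U.cobar.k s Y ▷ W) ≫ tB U (s + 1) Y W =
      (α_ R (U.cobar.B s Y) W).hom ≫ (R ◁ tB U s Y W) ≫ U.cobar.k s (Y ⊗ W) := by
  rw [← τB_hom, k_τ, τM_hom, Category.assoc, τB_hom]

/-- Compatibility with the connecting maps of the tower. -/
@[reassoc]
theorem bd_tB (s : ℕ) (Y W : T) :
    (U.bd s Y ▷ W) ≫ (shR (U.cobar.B s Y) W).hom ≫ (tB U s Y W)⟦(1 : ℤ)⟧' =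
      tB U (s + 1) Y W ≫ U.bd s (Y ⊗ W) := by
  rw [← τB_hom, ← τB_hom, bd_τ]

/-- Compatibility with `B a (B b Y) ≅ B (a+b) Y`. -/
@[reassoc]
theorem tB_BB (a b : ℕ) (Y W : T) :
    ((BB U.cobar a b Y).hom ▷ W) ≫ tB U (a + b) Y W =
      tB U a (U.cobar.B b Y) W ≫ U.cobar.Bm a (tB U b Y W) ≫ (BB U.cobar a b (Y ⊗ W)).hom := by
  induction b generalizing Y with
  | zero =>
    have h1 : U.cobar.Bm a (tB U 0 Y W) = 𝟙 _ := CobarData.Bm_id _ _ _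
    have h2 : (BB U.cobar a 0 Y).hom ▷ W = 𝟙 _ := id_whiskerRight _ _
    rw [h2]
    refine (Category.id_comp _).trans ?_
    rw [h1, Category.id_comp]
    exact (Category.comp_id _).symm
  | succ b ih =>
    have h1 := ih (U.J ⊗ Y)
    have h2 := BB_naturality U.cobar a b (α_ U.J Y W).hom
    calc _ = ((BB U.cobar a b (U.J ⊗ Y)).hom ▷ W) ≫ tB U (a + b) (U.J ⊗ Y) W ≫
          U.cobar.Bm (a + b) (α_ U.J Y W).hom := rfl
      _ = tB U a (U.cobar.B b (U.J ⊗ Y)) W ≫ U.cobar.Bm a (tB U b (U.J ⊗ Y) W) ≫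
          (BB U.cobar a b ((U.J ⊗ Y) ⊗ W)).hom ≫ U.cobar.Bm (a + b) (α_ U.J Y W).hom := by
          rw [reassoc_of% h1]
      _ = tB U a (U.cobar.B b (U.J ⊗ Y)) W ≫ (U.cobar.Bm a (tB U b (U.J ⊗ Y) W) ≫
          U.cobar.Bm a (U.cobar.Bm b (α_ U.J Y W).hom)) ≫
            (BB U.cobar a b (U.J ⊗ (Y ⊗ W))).hom := by
          rw [← h2, Category.assoc]
      _ = _ := by
          rw [← CobarData.Bm_comp]
          rfl

end Vale.Agent.P257.V4.E
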